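import Vale.Agent.P283.H646.Near

/-!
P283: the multiplicity condition on `F` is invariant under the change of coordinates.
-/

set_option linter.style.haveILetI false

namespace Vale.Agent.P283.H646

open scoped KaehlerDifferential
open MvPolynomial Finset Vale.Agent.P283 Vale.Agent.P283.Q.H646

/-- Linear forms are homogeneous. -/
theorem lform_isHomogeneous {k : ℕ} (w : Fin k → ℂ) : (lform w).IsHomogeneous 1 := by
  unfold lform
  refine IsHomogeneous.sum _ _ _ fun j _ => ?_
  have h := (isHomogeneous_C (Fin k) (w j)).mul (isHomogeneous_X ℂ j)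
  rwa [zero_add] at h

theorem lform_single {k : ℕ} (l : Fin k) : lform (Pi.single l 1 : Fin k → ℂ) = X l := by
  classical
  unfold lform
  rw [Finset.sum_eq_single l]
  · simp
  · intro j _ hj
    simp [Pi.single_eq_of_ne hj]
  · simp

theorem prod_coeff_eq_zero {k : ℕ} (v : Fin k → (Fin k → ℂ)) (b : Fin k → ℚ)
    (hvb : ∀ j, b j ≠ 0 → v j = Pi.single j 1) (Q₀ : ℕ) (μ ν : Fin k →₀ ℕ)
    (hμ : μ.degree < Q₀) (hμ' : ∀ j, (μ j : ℚ) ≤ (Q₀ - 1) * (1 - b j))
    (hν : Q₀ ≤ ν.degree ∨ ∃ l, (Q₀ - 1) * (1 - b l) < (ν l : ℚ)) :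
    coeff μ (∏ j, lform (v j) ^ ν j) = 0 := by
  classical
  have hhom : (∏ j, lform (v j) ^ ν j).IsHomogeneous ν.degree := by
    have h1 : ν.degree = ∑ j, 1 * ν j := by
      rw [Finsupp.degree_eq_sum]
      simp
    rw [h1]
    exact IsHomogeneous.prod _ _ _ fun j _ => (lform_isHomogeneous (v j)).pow _
  have hbig : Q₀ ≤ ν.degree → coeff μ (∏ j, lform (v j) ^ ν j) = 0 := by
    intro h
    exact hhom.coeff_eq_zero (by omega)
  rcases hν with h | ⟨l, hl⟩
  · exact hbig h
  · by_cases hb : b l = 0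
    · apply hbig
      rw [hb, sub_zero, mul_one] at hl
      have h1 : ν l ≤ ν.degree := by
        rw [Finsupp.degree_eq_sum]
        exact Finset.single_le_sum (f := fun j => ν j) (fun _ _ => Nat.zero_le _)
          (Finset.mem_univ l)
      have h2 : (Q₀ : ℚ) < (ν l : ℚ) + 1 := by linarith
      have h3 : Q₀ < ν l + 1 := by exact_mod_cast h2
      omega
    · rw [← Finset.mul_prod_erase _ _ (Finset.mem_univ l), hvb l hb, lform_single,
        X_pow_eq_monomial, coeff_monomial_mul', if_neg]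
      intro h
      rw [Finsupp.single_le_iff] at h
      have h1 := hμ' l
      have h2 : (ν l : ℚ) ≤ μ l := by exact_mod_cast h
      linarith

/-- The condition on `F` in the new coordinates. -/
theorem exists_newF {q k : ℕ} {K L : Type} [Field K] [Field L] [Algebra ℂ K] [Algebra ℂ L]
    [Algebra K L] {x : Fin (q + 1) → L} {z : Fin k → L} {g : MvPolynomial (Fin k) ℂ}
    {b : Fin k → ℚ} {G : Subgroup (L ≃ₐ[ℂ] L)} {A : Subalgebra ℂ K} (v : Fin k → (Fin k → ℂ))
    (hv : LinearIndependent ℂ v) (hvb : ∀ j, b j ≠ 0 → v j = Pi.single j 1)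
    (H : Q.IsQuotient x z g b G A) (Q₀ : ℕ) (F : MvPolynomial (Fin k) ℂ)
    (hF : ∃ μ ∈ F.support, μ.degree < Q₀ ∧ ∀ j, (μ j : ℚ) ≤ (Q₀ - 1) * (1 - b j)) :
    ∃ F' : MvPolynomial (Fin k) ℂ,
      (∃ μ ∈ F'.support, μ.degree < Q₀ ∧ ∀ j, (μ j : ℚ) ≤ (Q₀ - 1) * (1 - b j)) ∧
      aeval (fun j => Abs.lin z (v j)) F' = aeval z F := by
  classical
  obtain ⟨w, hvw, hwv, -⟩ := exists_inv v hv
  have hkey : aeval (fun j => Abs.lin z (v j)) (bind₁ (fun i => lform (w i)) F)
      = aeval z F := by
    rw [aeval_bind₁]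
    congr 2
    funext i
    simp only [lform, map_sum, map_mul, aeval_C, aeval_X]
    have h2 : ∑ j, algebraMap ℂ L (w i j) * Abs.lin z (v j)
        = Abs.lin z (∑ j, w i j • v j) := by
      rw [map_sum]
      exact Finset.sum_congr rfl fun j _ => by rw [map_smul, Algebra.smul_def]
    rw [h2, ← Abs.lin_single z i]
    congr 1
    funext l
    have := congrFun (congrFun hwv i) l
    rw [Matrix.mul_apply, Matrix.one_apply] at this
    simp only [Finset.sum_apply, Pi.smul_apply, smul_eq_mul, Pi.single_apply]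
    have h5 : (if l = i then (1 : ℂ) else 0) = if i = l then 1 else 0 := by
      simp only [eq_comm]
    rw [h5]
    exact this
  set F' := bind₁ (fun i => lform (w i)) F with hF'
  refine ⟨F', ?_, hkey⟩
  obtain ⟨μ, hμ, hdeg, hle⟩ := hF
  by_contra hcon
  push Not at hcon
  -- `F` in terms of `F'`
  have hz : AlgebraicIndependent ℂ z := by
    have h1 := (Abs.coords H).ind.comp Sum.inr Sum.inr_injective
    exact h1
  have hback : F = bind₁ (fun j => lform (v j)) F' := by
    apply hz
    rw [aeval_bind₁]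
    have h1 : (fun j => aeval z (lform (v j))) = fun j => Abs.lin z (v j) := by
      funext j
      simp only [lform, map_sum, map_mul, aeval_C, aeval_X]
      rw [Abs.lin_apply]
      exact Finset.sum_congr rfl fun i _ => by rw [Algebra.smul_def]
    rw [h1, hkey]
  have h1 : coeff μ F = 0 := by
    rw [hback]
    conv_lhs => rw [F'.as_sum]
    rw [map_sum, coeff_sum]
    refine Finset.sum_eq_zero fun ν hν => ?_
    have h2 : bind₁ (fun j => lform (v j)) (monomial ν (coeff ν F'))
        = C (coeff ν F') * ∏ j, lform (v j) ^ ν j := by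
      rw [bind₁_monomial]
      congr 1
      exact Finset.prod_subset (Finset.subset_univ _) fun j _ hj => by
        rw [Finsupp.notMem_support_iff.1 hj, pow_zero]
    rw [h2, coeff_C_mul, prod_coeff_eq_zero v b hvb Q₀ μ ν hdeg hle, mul_zero]
    by_contra h3
    push Not at h3
    obtain ⟨j, hj⟩ := hcon ν hν h3.1
    exact absurd (h3.2 j) (not_le.2 hj)
  exact (mem_support_iff.1 hμ) h1

end Vale.Agent.P283.H646
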