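import Vale.Agent.P283.H329.Strong

/-!
Quotients `X = Y / G` of `Y = {x₀ x₁ ⋯ x_q = g(z₁, …, z_k)}` with a boundary
`B_Y = ∑ b_j div(z_j) + (1 / Q₀) div(f)`, `f` an arbitrary function on `Y`.
-/

namespace Vale.Agent.P283.Q.H646

open MvPolynomial

variable {K : Type} [Field K] [Algebra ℂ K] {q k : ℕ} {L : Type} [Field L] [Algebra ℂ L]
  [Algebra K L]

/-- The coordinate ring `ℂ[x₀, …, x_q, z₁, …, z_k]` of `Y`. -/
abbrev OY (x : Fin (q + 1) → L) (z : Fin k → L) : Subalgebra ℂ L :=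
  Algebra.adjoin ℂ (Set.range x ∪ Set.range z)

/-- The image on `X = Y / G = Spec A` of the closed point `χ` of `Y` is `p`: a closed point of `Y`
is given by the evaluation `χ` of functions at this point. -/
def IsImage (x : Fin (q + 1) → L) (z : Fin k → L) (A : Subalgebra ℂ K) (χ : OY x z →ₐ[ℂ] ℂ)
    (p : Ideal A) : Prop :=
  ∀ (a : A) (y : OY x z), (y : L) = algebraMap K L a → (a ∈ p ↔ χ y = 0)

/-- `π^* (K_X + B) = K_Y + B_Y` for the quotient map `π : Y → X = Y / G`, where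
`B_Y = ∑ b_j div(z_j) + (1 / Q₀) div(f)`: here `K_X` is the divisor of the rational form `ω`
given by `D`, and `K_Y` the divisor of `π^* ω = h • Ω`, that is, the divisor of `h`, where
`Ω = (x₁ ⋯ x_q)⁻¹ dx₁ ∧ ⋯ ∧ dx_q ∧ dz₁ ∧ ⋯ ∧ dz_k` generates the canonical sheaf of `Y`; the form
`π^* ω` is given by the extension `D'` of `D` to `L`. The equality is tested along every prime
divisor `w` on `Y` over a prime divisor `u` on `X`, where `e` is the ramification index of `π`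
along `w`. -/
def IsCrepantF (x : Fin (q + 1) → L) (z : Fin k → L) (b : Fin k → ℚ) (f : L) (Q₀ : ℕ)
    (A : Subalgebra ℂ K) (D : Fin (q + k) → Derivation ℂ K K) (B : QDivisor A) : Prop :=
  ∀ (D' : Fin (q + k) → Derivation ℂ L L) (h : L),
    (∀ (i : Fin (q + k)) (y : K), D' i (algebraMap K L y) = algebraMap K L (D i y)) →
    h * jac D' (Fin.append (Fin.tail x) z) = ∏ l, Fin.tail x l →
    ∀ (u : AddValuation K (WithTop ℤ)) (p : Ideal A) (m : ℤ) (w : AddValuation L (WithTop ℤ))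
      (e : ℕ) (a : ℤ) (a' : Fin k → ℤ) (l : ℤ),
      IsPrimeDivisorOn A (q + k) u p → FormOrder u D m →
      0 < e → (∃ y, w y = 1) → (∀ y : K, w (algebraMap K L y) = e • u y) →
      w h = (a : WithTop ℤ) → (∀ j, w (z j) = (a' j : WithTop ℤ)) → w f = (l : WithTop ℤ) →
        (e : ℚ) * (m + B.coeff p) = a + ∑ j, b j * a' j + (l : ℚ) / Q₀

/-- The pair `(Y, ∑ (1 - μ_j / κ) div(z_j) + (1 / κ) div(f))` is log canonical on the open subset
`{E ≠ 0}` of `Y`. Here `D'` gives the form `Ω / (z₁ ⋯ z_k)`, so that `1 + m` is the log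
discrepancy of `(Y, ∑ div(z_j))` along the prime divisor `w` over `Y`, and
`1 + m + ∑ (μ_j / κ) w(z_j) - w(f) / κ` is the one of the pair. -/
def IsLcOn (x : Fin (q + 1) → L) (z : Fin k → L) (κ : ℕ) (μ : Fin k → ℕ) (f E : L) : Prop :=
  ∀ D' : Fin (q + k) → Derivation ℂ L L,
    jac D' (Fin.append (Fin.tail x) z) = (∏ l, Fin.tail x l) * ∏ j, z j →
    ∀ (w : AddValuation L (WithTop ℤ)) (m l : ℤ) (a : Fin k → ℤ), IsDivisorial (q + k) w →
      (∀ i, 0 ≤ w (x i)) → (∀ j, 0 ≤ w (z j)) → w E = 0 → FormOrder w D' m →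
      (∀ j, w (z j) = (a j : WithTop ℤ)) → w f = (l : WithTop ℤ) →
        0 ≤ κ * (1 + m) + ∑ j, (μ j : ℤ) * a j - l

/-- On an open subset `{σ ≠ 0}` of `X = Spec A`, which contains all the points of `S`, one rational
function `φ` defines a klt `n`-complement of `(X, B)`, and of all its crepant models: the
`ℚ`-divisor `Λ` with `n (K_X + Λ) = div φ` satisfies `Λ ≥ 0` and `Λ ≥ B` and is klt on
`{σ ≠ 0}`; and for all birational `X' → {σ ≠ 0}` and `B' ≥ 0` with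
`K_{X'} + B' = pullback of K_X + B`, the `ℚ`-divisor `Λ'` on `X'` with `n (K_{X'} + Λ') = div φ`
satisfies `Λ' ≥ 0` and `Λ' ≥ B'` and is klt. -/
def HasKltComplementOver {A : Subalgebra ℂ K} {d : ℕ} (D : Fin d → Derivation ℂ K K)
    (B : QDivisor A) (n : ℕ) (S : Set (Ideal A)) : Prop :=
  ∃ (σ : A) (φ : K), (∀ p ∈ S, σ ∉ p) ∧ φ ≠ 0 ∧
    (∀ (u : AddValuation K (WithTop ℤ)) (p : Ideal A) (m k : ℤ),
      IsPrimeDivisorOn A d u p → σ ∉ p → FormOrder u D m → u φ = (k : WithTop ℤ) →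
        0 ≤ (k : ℚ) / n - m ∧ B.coeff p ≤ (k : ℚ) / n - m) ∧
    (∀ (v : AddValuation K (WithTop ℤ)) (m k : ℤ), IsDivisorial d v → IsOver A v →
      v σ = 0 → FormOrder v D m → v φ = (k : WithTop ℤ) → 0 < 1 + (m : ℚ) - (k : ℚ) / n) ∧
    ∀ (𝒞 : Set (Subalgebra ℂ K)) (β : AddValuation K (WithTop ℤ) → ℚ),
      IsCrepantModel D B 𝒞 β → (∀ C ∈ 𝒞, (σ : K)⁻¹ ∈ C) → IsKltComplementOn D 𝒞 β n φ

/-- The partial derivative `∂^α F` of the polynomial `F`. -/
noncomputable def pderivs (α : Fin k →₀ ℕ) (F : MvPolynomial (Fin k) ℂ) :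
    MvPolynomial (Fin k) ℂ :=
  ∑ ν ∈ F.support, monomial (ν - α) (F.coeff ν * ∏ j, ((ν j).descFactorial (α j) : ℂ))

/-- `X = Y / G = Spec A` is the quotient of `Y = {x₀ x₁ ⋯ x_q = g(z₁, …, z_k)}` by the finite group
`G`, which permutes the `x_i` and the `z_j` with `b_j ≠ 0` up to scalars, acts linearly on the span
of the `z_j` and preserves the coefficients `b_j`, and `K` is the function field of `X`; the
function `f` on `Y` is semi-invariant; and `(X, B)` is an effective `ε`-lc pair with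
`π^* (K_X + B) = K_Y + B_Y`, `B_Y = ∑ b_j div(z_j) + (1 / Q₀) div(f)`, where `K_X` is the divisor of
the rational form `ω` given by `D`. -/
structure IsPairF (x : Fin (q + 1) → L) (z : Fin k → L) (g : MvPolynomial (Fin k) ℂ)
    (b : Fin k → ℚ) (f : L) (Q₀ : ℕ) (G : Subgroup (L ≃ₐ[ℂ] L)) (A : Subalgebra ℂ K)
    (D : Fin (q + k) → Derivation ℂ K K) (B : QDivisor A) (ε : ℝ) : Prop where
  quotient : IsQuotient x z g b G A
  mem : f ∈ OY x z
  ne_zero : f ≠ 0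
  semi : ∀ τ ∈ G, ∃ c : ℂ, τ f = c • f
  form : ∃ y, jac D y ≠ 0
  effective : ∀ p, 0 ≤ B.coeff p
  crepant : IsCrepantF x z b f Q₀ A D B
  epsLC : IsEpsLC D B ε

/-- The coordinates `x_i` and `z_j` are semi-invariants of the group `G`. -/
def IsDiagonal (x : Fin (q + 1) → L) (z : Fin k → L) (G : Subgroup (L ≃ₐ[ℂ] L)) : Prop :=
  (∀ τ ∈ G, ∀ i, ∃ c : ℂ, τ (x i) = c • x i) ∧ ∀ τ ∈ G, ∀ j, ∃ c : ℂ, τ (z j) = c • z j

/-- The group `G` has the subgroup `G₀` of index at most `J`, which acts diagonally, and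
`f / z^μ` is invariant under `G₀`; for every `j`, `μ_j ≤ (Q₀ - 1) (1 - b_j)` or `z_j` divides `E`;
and the pair `(Y, ∑ (1 - μ_j / κ) div(z_j) + (1 / κ) div(f))` is log canonical on `{E ≠ 0}`, where
`κ < Q₀`. -/
structure IsLcData (x : Fin (q + 1) → L) (z : Fin k → L) (b : Fin k → ℚ) (f : L) (J Q₀ : ℕ)
    (G G₀ : Subgroup (L ≃ₐ[ℂ] L)) (κ : ℕ) (μ : Fin k → ℕ) (E : L) : Prop where
  le : G₀ ≤ G
  index : G₀.relIndex G ≤ J
  diagonal : IsDiagonal x z G₀
  lt : κ < Q₀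
  mem : E ∈ OY x z
  ne_zero : E ≠ 0
  inv : ∀ τ ∈ G₀, τ (f / ∏ j, z j ^ μ j) = f / ∏ j, z j ^ μ j
  bound : ∀ j, (μ j : ℚ) ≤ (Q₀ - 1) * (1 - b j) ∨ ∃ y ∈ OY x z, E = z j * y
  lc : IsLcOn x z κ μ f E

/-- The images on `X = Y / G` of the closed points of `Y` whose `G`-orbits lie in `{E ≠ 0}`. -/
def orbitPoints (x : Fin (q + 1) → L) (z : Fin k → L) (G : Subgroup (L ≃ₐ[ℂ] L))
    (A : Subalgebra ℂ K) (E : L) : Set (Ideal A) :=
  {p | ∃ χ : OY x z →ₐ[ℂ] ℂ, IsImage x z A χ p ∧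
    ∀ τ ∈ G, ∀ y : OY x z, (y : L) = τ E → χ y ≠ 0}

/-- The images on `X = Y / G` of the closed points of `Y` with `z = a`. -/
def pointsOver (x : Fin (q + 1) → L) (z : Fin k → L) (A : Subalgebra ℂ K) (a : Fin k → ℂ) :
    Set (Ideal A) :=
  {p | ∃ χ : OY x z →ₐ[ℂ] ℂ, IsImage x z A χ p ∧
    ∀ (y : OY x z) (j : Fin k), (y : L) = z j → χ y = a j}

end Vale.Agent.P283.Q.H646
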