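import Vale.Agent.P283.H646.Op
import Vale.Agent.P283.H207.Engine

/-!
P283: the engine for a boundary `B_Y = ∑ b_j div(z_j) + (1 / Q₀) div(f)`, where the order of `f`
along every divisorial valuation is bounded by the order of a monomial plus `κ < Q₀` times the log
discrepancy.
-/

set_option linter.style.haveILetI false

namespace Vale.Agent.P283.H646

open scoped KaehlerDifferential
open MvPolynomial Finset Vale.Agent.P283

/-- The properties of the additional boundary `(1 / Q₀) div(f)`. -/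
structure FData (q k : ℕ) {L : Type} [Field L] [Algebra ℂ L] (t : Fin q ⊕ Fin k → L) (x0 : L)
    (G0 : Subgroup (L ≃ₐ[ℂ] L)) (c : Fin k → ℚ) (Q₀ κ : ℕ) (μ : Fin k → ℕ) (f E : L) :
    Prop where
  f_ne : f ≠ 0
  nonneg : ∀ w : AddValuation L (WithTop ℤ), (∀ c : ℂ, c ≠ 0 → w (algebraMap ℂ L c) = 0) →
    (∀ i, 0 ≤ w (t i)) → 0 ≤ w x0 → 0 ≤ w f
  inv : ∀ τ ∈ G0, τ (f * (∏ j, t (Sum.inr j) ^ μ j)⁻¹) = f * (∏ j, t (Sum.inr j) ^ μ j)⁻¹
  κ_lt : κ < Q₀
  le : ∀ w : AddValuation L (WithTop ℤ), IsDivisorial (q + k) w → (∀ i, 0 ≤ w (t i)) →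
    0 ≤ w x0 → w E = 0 →
    ∀ j, (μ j : ℚ) * ov w (t (Sum.inr j)) ≤ (Q₀ - 1) * c j * ov w (t (Sum.inr j))
  key : ∀ (w : AddValuation L (WithTop ℤ)) (m : ℤ), IsDivisorial (q + k) w →
    (∀ i, 0 ≤ w (t i)) → 0 ≤ w x0 → w E = 0 → FormOrder (q + k) w (logForm t) m →
    ov w f ≤ ∑ j, (μ j : ℤ) * ov w (t (Sum.inr j)) + κ * (m + 1)

/-- One global equation `ψ`, and a function `φ` which is a complement where `E ≠ 0`. -/
def StrongComplF {K L : Type} [Field K] [Field L] [Algebra ℂ K] [Algebra ℂ L] [Algebra K L]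
    {A : Subalgebra ℂ K} (d : ℕ)
    (ω : ⋀[K]^d (Ω[K⁄ℂ])) (B : QDivisor A) (E : L) (n : ℕ) : Prop :=
  ∃ (r : ℕ) (ψ φ : K), (∀ p : Ideal A, IsLocalEquation d ω B p r ψ) ∧ φ ≠ 0 ∧
    (∀ (v : AddValuation K (WithTop ℤ)) (m k : ℤ), IsDivisorial d v → IsOver A v →
      (∀ (w : AddValuation L (WithTop ℤ)) (e : ℕ), 0 < e → (∃ f, w f = 1) →
        (∀ f : K, w (algebraMap K L f) = e • v f) → w E = 0) →
      FormOrder d v ω m → v φ = (k : WithTop ℤ) → 0 < 1 + (m : ℚ) - (k : ℚ) / n) ∧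
    (∀ (v : AddValuation K (WithTop ℤ)) (k l : ℤ), IsDivisorial d v → IsOver A v →
      (∀ (w : AddValuation L (WithTop ℤ)) (e : ℕ), 0 < e → (∃ f, w f = 1) →
        (∀ f : K, w (algebraMap K L f) = e • v f) → w E = 0) →
      v φ = (k : WithTop ℤ) → v ψ = (l : WithTop ℤ) → (l : ℚ) / r ≤ (k : ℚ) / n)

theorem StrongComplF.mul {K L : Type} [Field K] [Field L] [Algebra ℂ K] [Algebra ℂ L]
    [Algebra K L] {A : Subalgebra ℂ K} {d : ℕ}
    {ω : ⋀[K]^d (Ω[K⁄ℂ])} {B : QDivisor A} {E : L} {n : ℕ}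
    (h : StrongComplF d ω B E n) {m : ℕ} (hm : 0 < m) : StrongComplF d ω B E (n * m) := by
  obtain ⟨r, ψ, φ, h0, hφ, h1, h2⟩ := h
  have hmQ : (m : ℚ) ≠ 0 := by exact_mod_cast hm.ne'
  have key : ∀ (u : AddValuation K (WithTop ℤ)) (k : ℤ), u (φ ^ m) = (k : WithTop ℤ) →
      (k : ℚ) / ((n * m : ℕ) : ℚ) = (ov u φ : ℚ) / n := by
    intro u k hk
    have h3 : k = m * ov u φ := by
      have := ov_eq_of u hk
      rw [ov_pow u hφ] at this
      exact this.symm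
    rw [h3]
    push_cast
    rw [mul_comm (m : ℚ), mul_div_mul_right _ _ hmQ]
  refine ⟨r, ψ, φ ^ m, h0, pow_ne_zero _ hφ, ?_, ?_⟩
  · intro v m' k hv hv' hE hω hk
    rw [key v k hk]
    exact h1 v m' (ov v φ) hv hv' hE hω (coe_ov v hφ).symm
  · intro v k l hv hv' hE hk hl
    rw [key v k hk]
    exact h2 v (ov v φ) l hv hv' hE (coe_ov v hφ).symm hl

/-- **The engine.** -/
theorem engineF (q k : ℕ) (hd : 0 < q + k) (J : ℕ) : ∃ c₀ : ℕ, 0 < c₀ ∧
    ∀ ε : ℝ, 0 < ε → ∀ N' Q₀ : ℕ, 0 < Q₀ → (c₀ : ℝ) * (1 + 1 / ε) ≤ N' →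
    ∀ (K L : Type) [Field K] [Field L] [Algebra ℂ K] [Algebra ℂ L] [Algebra K L]
      [IsScalarTower ℂ K L] (t : Fin q ⊕ Fin k → L) (g : MvPolynomial (Fin k) ℂ) (x0 : L)
      (G G0 : Subgroup (L ≃ₐ[ℂ] L)) (A : Subalgebra ℂ K), EngineData q k J t g x0 G G0 A →
    ∀ (ω : ⋀[K]^(q + k) (Ω[K⁄ℂ])) (h : L), ω ≠ 0 → h ≠ 0 → IsPullback ω (h • logForm t) →
      (∀ τ ∈ G0, τ h = h) →
    ∀ (B : QDivisor A) (c : Fin k → ℚ) (r : ℕ) (c' : Fin k → ℤ) (ψ : K) (χ : ℂ) (κ : ℕ)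
      (μ : Fin k → ℕ) (f E : L), 0 < r →
      (∀ j, (c' j : ℚ) = (r * Q₀ : ℕ) * c j) → χ ≠ 0 →
      algebraMap K L ψ
        = χ • (h ^ (r * Q₀) * (∏ j, t (Sum.inr j) ^ (-c' j)) * f ^ r) →
      (∀ (u : AddValuation K (WithTop ℤ)) (p : Ideal A) (m : ℤ) (w : AddValuation L (WithTop ℤ))
        (e : ℕ), IsPrimeDivisorOn A (q + k) u p → FormOrder (q + k) u ω m → 0 < e →
        (∃ f, w f = 1) → (∀ f : K, w (algebraMap K L f) = e • u f) →
        (e : ℚ) * (m + B.coeff p)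
          = ov w h - ∑ j, c j * ov w (t (Sum.inr j)) + (ov w f : ℚ) / Q₀) →
      FData q k t x0 G0 c Q₀ κ μ f E →
      IsEpsLC (q + k) ω B ε →
      StrongComplF (q + k) ω B E (N' * Q₀ * J.factorial) := by
  classical
  obtain ⟨F₀, hF₀, hCF⟩ := sections_exist_lin q k
  obtain ⟨N0, hN0'⟩ := exists_nat_ge (2 * ((q : ℝ) + k) * F₀)
  refine ⟨2 * (q + k) + 1 + N0, by omega, ?_⟩
  intro ε hε N' Q₀ hQ₀ hNc
  have hC := hCF ε hε
  set C : ℝ := F₀ / ε with hCdef
  have hC0 : 0 ≤ C := div_nonneg hF₀ hε.le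
  have hε1 : 0 < 1 / ε := by positivity
  have hNbig : 2 * (q + k) < N' := by
    have h1 : ((2 * (q + k) + 1 + N0 : ℕ) : ℝ) ≤ N' := by
      refine le_trans ?_ hNc
      have : (0 : ℝ) ≤ ((2 * (q + k) + 1 + N0 : ℕ) : ℝ) := Nat.cast_nonneg _
      nlinarith
    have h2 : 2 * (q + k) + 1 + N0 ≤ N' := by exact_mod_cast h1
    omega
  have hN0 : 2 * ((q : ℝ) + k) * |C| ≤ N' := by
    refine le_trans ?_ hNc
    rw [abs_of_nonneg hC0, hCdef]
    have h1 : 2 * ((q : ℝ) + k) * (F₀ / ε) = (2 * ((q : ℝ) + k) * F₀) * (1 / ε) := by ring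
    rw [h1]
    have h2 : (2 * ((q : ℝ) + k) * F₀) * (1 / ε) ≤ N0 * (1 / ε) :=
      mul_le_mul_of_nonneg_right hN0' hε1.le
    refine h2.trans ?_
    push_cast
    have h3 : (0 : ℝ) ≤ (2 * ((q : ℝ) + k) + 1) * (1 + 1 / ε) := by positivity
    have h4 : (0 : ℝ) ≤ N0 := Nat.cast_nonneg _
    nlinarith
  intro K L _ _ _ _ _ _ t g x0 G G0 A H ω h hω hh hpull hhG B c r c' ψ χ κ μ f E hr hc' hχ hψ
    hcrep HF hlc
  haveI := H.isAlgebraic
  haveI := H.essL
  haveI := H.essK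
  haveI := H.finDim
  haveI : Finite G := H.fin
  haveI : Finite G0 := Set.Finite.subset (Set.toFinite (G : Set (L ≃ₐ[ℂ] L))) H.le
  haveI : CharZero K := charZero_of_injective_algebraMap (algebraMap ℂ K).injective
  have ht0 := H.coords.ne_zero
  have hr0 : 0 < Nat.card G0 := Nat.card_pos
  have hf0 := HF.f_ne
  have hSne : (supp g).Nonempty := by
    obtain ⟨n, hn⟩ := support_nonempty.2 H.g_ne
    exact ⟨_, Finset.mem_image_of_mem _ hn⟩
  -- the global equation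
  have hT0 : ∀ j : Fin k, t (Sum.inr j) ^ (-c' j) ≠ 0 := fun j => zpow_ne_zero _ (H.coords.ne_zero _)
  have hT1 : ∏ j, t (Sum.inr j) ^ (-c' j) ≠ 0 := Finset.prod_ne_zero_iff.2 fun j _ => hT0 j
  have hprod0 : h ^ (r * Q₀) * (∏ j, t (Sum.inr j) ^ (-c' j)) * f ^ r ≠ 0 :=
    mul_ne_zero (mul_ne_zero (pow_ne_zero _ hh) hT1) (pow_ne_zero _ hf0)
  have hψ0 : ψ ≠ 0 := by
    rintro rfl
    rw [map_zero, Algebra.smul_def] at hψ
    exact (mul_ne_zero ((map_ne_zero _).2 hχ) hprod0) hψ.symm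
  have hrr : 0 < r * Q₀ := Nat.mul_pos hr hQ₀
  have hQQ : (Q₀ : ℚ) ≠ 0 := by exact_mod_cast hQ₀.ne'
  have hrQ : ((r * Q₀ : ℕ) : ℚ) ≠ 0 := by exact_mod_cast hrr.ne'
  have hval : ∀ (w1 : AddValuation L (WithTop ℤ)) (v1 : AddValuation K (WithTop ℤ)) (e1 : ℕ),
      IsDivisorial (q + k) v1 →
      (∀ f : K, w1 (algebraMap K L f) = e1 • v1 f) →
      (e1 : ℚ) * ov v1 ψ = (r * Q₀ : ℕ) * (ov w1 h - ∑ j, c j * ov w1 (t (Sum.inr j))
        + (ov w1 f : ℚ) / Q₀) := by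
    intro w1 v1 e1 hv1 hvw1
    have h1 : ov w1 (algebraMap K L ψ) = e1 * ov v1 ψ := by
      apply ov_eq_of
      rw [hvw1, ← coe_ov v1 hψ0, ← WithTop.coe_nsmul]
      simp
    have h2 : ov w1 (algebraMap ℂ L χ) = 0 := by
      apply ov_eq_of
      rw [IsScalarTower.algebraMap_apply ℂ K L, hvw1, hv1.const χ hχ, nsmul_zero]; rfl
    have h3 : ov w1 (algebraMap K L ψ)
        = (r * Q₀ : ℕ) * ov w1 h + ∑ j, (-c' j) * ov w1 (t (Sum.inr j)) + r * ov w1 f := by
      rw [hψ, Algebra.smul_def, ov_mul w1 ((map_ne_zero _).2 hχ) hprod0, h2, zero_add,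
        ov_mul w1 (mul_ne_zero (pow_ne_zero _ hh) hT1) (pow_ne_zero _ hf0),
        ov_mul w1 (pow_ne_zero _ hh) hT1,
        ov_pow w1 hh, ov_pow w1 hf0, ov_prod _ _ fun j _ => hT0 j]
      congr 2
      exact Finset.sum_congr rfl fun j _ => ov_zpow w1 (H.coords.ne_zero _) _
    have h4 : ((ov w1 (algebraMap K L ψ) : ℤ) : ℚ) = e1 * ov v1 ψ := by rw [h1]; push_cast; rfl
    rw [← h4, h3]
    have h5 : ∑ j, c j * (ov w1 (t (Sum.inr j)) : ℚ) * (r * Q₀ : ℕ)
        = ∑ j, (c' j : ℚ) * ov w1 (t (Sum.inr j)) := by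
      apply Finset.sum_congr rfl
      intro j _
      rw [hc']; ring
    rw [← Finset.sum_mul] at h5
    have h6 : ((r * Q₀ : ℕ) : ℚ) * ((ov w1 f : ℚ) / Q₀) = r * ov w1 f := by
      push_cast
      field_simp
    rw [mul_add, mul_sub, h6, mul_comm ((r * Q₀ : ℕ) : ℚ) (∑ j, c j * (ov w1 (t (Sum.inr j)) : ℚ)),
      h5]
    push_cast
    simp only [neg_mul, Finset.sum_neg_distrib]
    ring
  have hloc : ∀ p0 : Ideal A, IsLocalEquation (q + k) ω B p0 (r * Q₀) ψ := by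
    intro p0
    refine ⟨hrr, hψ0, ?_⟩
    intro u p m k' hu _ hm hk'
    obtain ⟨wu, eu, heu, hwu1, hwu2⟩ := exists_extension (L := L) u hu.1.normalized
    have h1 := hcrep u p m wu eu hu hm heu hwu1 hwu2
    have h2 := hval wu u eu hu.1 hwu2
    rw [ov_eq_of u hk', ← h1] at h2
    have h3 : (eu : ℚ) ≠ 0 := by exact_mod_cast heu.ne'
    have h4 : (eu : ℚ) * k' = eu * ((r * Q₀ : ℕ) * (m + B.coeff p)) := by rw [h2]; ring
    exact mul_left_cancel₀ h3 h4
  -- common facts on the twisted valuations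
  have htw : ∀ (v : AddValuation K (WithTop ℤ)) (w : AddValuation L (WithTop ℤ)) (e : ℕ),
      IsOver A v → (∀ f : K, w (algebraMap K L f) = e • v f) →
      ∀ τ ∈ G, (∀ i, 0 ≤ (w.comap (τ : L →+* L)) (t i)) ∧ 0 ≤ (w.comap (τ : L →+* L)) x0 := by
    intro v w e hover hvw τ hτ
    have hnn : ∀ a ∈ A, 0 ≤ (w.comap (τ : L →+* L)) (algebraMap K L a) := by
      intro a ha
      rw [H.twist hvw hτ]
      exact nsmul_nonneg (hover ⟨a, ha⟩) e
    exact ⟨fun i => nonneg_of_integral hnn (H.int i), nonneg_of_integral hnn H.int0⟩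
  have hover1 : ∀ (v : AddValuation K (WithTop ℤ)) (w : AddValuation L (WithTop ℤ)) (e : ℕ),
      IsOver A v → (∀ f : K, w (algebraMap K L f) = e • v f) →
      (∀ i, 0 ≤ w (t i)) ∧ 0 ≤ w x0 := by
    intro v w e hover hvw
    have hnn : ∀ a ∈ A, 0 ≤ w (algebraMap K L a) := by
      intro a ha
      rw [hvw]
      exact nsmul_nonneg (hover ⟨a, ha⟩) e
    exact ⟨fun i => nonneg_of_integral hnn (H.int i), nonneg_of_integral hnn H.int0⟩
  -- the lower bound of the toric log discrepancies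
  have hpsi : ∀ x : Fin q ⊕ Fin k → ℝ, InCone (supp g) x →
      (∀ u ∈ invLattice t H.coords.ne_zero G0, ∃ z : ℤ, ∑ i, x i * u i = z) → x ≠ 0 →
      ε ≤ ∑ j, (c j : ℝ) * x (Sum.inr j) := by
    intro x hx hxM hx0
    have h1 := H207.psi_bound H hd hε hω hh hpull (ι := Unit) (fun _ => c) (by
      intro v w e m hv hover hm he hw1 hvw
      have h2 := hlc.2 v (1 + m - (ov v ψ : ℚ) / (r * Q₀ : ℕ)) hv hover
        ⟨centreIdeal A v hover, r * Q₀, ψ, m, ov v ψ, fun _ => Iff.rfl, hloc _, hm,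
          (coe_ov v hψ0).symm, rfl⟩
      have h3 := hval w v e hv hvw
      have hdiv := isDivisorial_of_ext hv hw1 hvw
      have h4 : 0 ≤ ov w f := (nonneg_iff w hf0).1
        (HF.nonneg w hdiv.const (hover1 v w e hover hvw).1 (hover1 v w e hover hvw).2)
      obtain ⟨a, ha⟩ := H207.exists_PsiF (fun _ : Unit => c)
        (fun j => (ov w (t (Sum.inr j)) : ℝ))
      rw [ha]
      have h5 : (e : ℚ) * (1 + m - (ov v ψ : ℚ) / (r * Q₀ : ℕ))
          = e * (1 + m) - (ov w h - ∑ j, c j * ov w (t (Sum.inr j)) + (ov w f : ℚ) / Q₀) := by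
        rw [mul_sub, ← mul_div_assoc, h3, mul_div_cancel_left₀ _ hrQ]
      have h6 : (e : ℝ) * ε ≤ ((e * (1 + m)
          - (ov w h - ∑ j, c j * ov w (t (Sum.inr j)) + (ov w f : ℚ) / Q₀) : ℚ) : ℝ) := by
        rw [← h5]
        push_cast
        have h7 : (0 : ℝ) ≤ e := Nat.cast_nonneg _
        have h8 := mul_le_mul_of_nonneg_left h2 h7
        push_cast at h8
        exact h8
      refine h6.trans ?_
      push_cast
      have h7 : (0 : ℝ) ≤ (ov w f : ℝ) / Q₀ := div_nonneg (by exact_mod_cast h4) (by positivity)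
      linarith) x hx hxM hx0
    obtain ⟨a, ha⟩ := H207.exists_PsiF (fun _ : Unit => c) (fun j => x (Sum.inr j))
    rw [ha] at h1
    exact h1
  -- positivity of the coefficients
  have hcpos : ∀ j, 0 < c j := by
    intro j
    let x : Fin q ⊕ Fin k → ℝ := Pi.single (Sum.inr j) (Nat.card G0 : ℝ)
    have h1 := hpsi x ?_ ?_ ?_
    · have h2 : ∑ j', (c j' : ℝ) * x (Sum.inr j') = c j * Nat.card G0 := by
        rw [Finset.sum_eq_single j]
        · simp only [Pi.single_eq_same, x]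
        · intro j' _ hj'
          have : (Sum.inr j' : Fin q ⊕ Fin k) ≠ Sum.inr j := fun h => hj' (Sum.inr_injective h)
          simp only [Pi.single_eq_of_ne this, mul_zero, x]
        · simp only [mem_univ, not_true_eq_false, mul_eq_zero, Rat.cast_eq_zero, IsEmpty.forall_iff]
      rw [h2] at h1
      have h3 : (0 : ℝ) < Nat.card G0 := by exact_mod_cast hr0
      have h4 : (0 : ℝ) < c j := by
        by_contra hcon
        push Not at hcon
        have : (c j : ℝ) * Nat.card G0 ≤ 0 := mul_nonpos_of_nonpos_of_nonneg hcon h3.le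
        linarith only [hε, h1, this]
      exact_mod_cast h4
    · refine ⟨?_, ?_⟩
      · intro i
        by_cases hi : i = Sum.inr j
        · subst hi; simp only [Pi.single_eq_same, Nat.cast_nonneg, x]
        · simp only [Pi.single_eq_of_ne hi, Std.le_refl, x]
      · intro μ _
        have h1 : ∑ l : Fin q, x (Sum.inl l) = 0 := by
          apply Finset.sum_eq_zero
          intro l _
          simp only [ne_eq, reduceCtorEq, not_false_eq_true, Pi.single_eq_of_ne, x]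
        rw [h1]
        unfold mdot
        apply Finset.sum_nonneg
        intro j' _
        apply mul_nonneg (by (clear * -; positivity))
        by_cases hi : (Sum.inr j' : Fin q ⊕ Fin k) = Sum.inr j
        · rw [hi]; simp only [Pi.single_eq_same, Nat.cast_nonneg, x]
        · simp only [Pi.single_eq_of_ne hi, Std.le_refl, x]
    · intro u _
      refine ⟨Nat.card G0 * u (Sum.inr j), ?_⟩
      rw [Finset.sum_eq_single (Sum.inr j)]
      · simp only [Pi.single_eq_same, Int.cast_mul, Int.cast_natCast, x]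
      · intro i _ hi
        simp only [Pi.single_eq_of_ne hi, zero_mul, x]
      · simp only [mem_univ, not_true_eq_false, mul_eq_zero, Int.cast_eq_zero, IsEmpty.forall_iff]
    · intro h0
      have := congrFun h0 (Sum.inr j)
      simp only [x, Pi.single_eq_same, Pi.zero_apply] at this
      exact hr0.ne' (by exact_mod_cast this)
  obtain ⟨Ls, hLlen, hL1, hL2⟩ := hC (invLattice t ht0 G0) (Nat.card G0) hr0
    (fun u => H.card_smul_mem u) (supp g) hSne H.supp_mem (fun j => (c j : ℝ))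
    (fun j => by exact_mod_cast hcpos j) hpsi
  have hLs : ∀ s ∈ Ls, s.1 = 0 ∨ ∃ l, s.2 (Sum.inl l) = 0 := fun s hs => (hL1 s hs).2.1
  have hne : ∀ s ∈ Ls, 1 + phi t x0 s ≠ 0 := fun s hs => one_add_phi_ne_zero H (hLs s hs)
  let Q : L := (Ls.map fun s => 1 + phi t x0 s).prod
  have hQ0 : Q ≠ 0 := list_prod_ne_zero Ls _ hne
  set z : L := ∏ j, t (Sum.inr j) ^ μ j with hzdef
  have hz0 : z ≠ 0 := Finset.prod_ne_zero_iff.2 fun j _ => pow_ne_zero _ (ht0 _)
  have hfz0 : f * z⁻¹ ≠ 0 := mul_ne_zero hf0 (inv_ne_zero hz0)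
  let F : L := h ^ (N' * Q₀) * Q * (f * z⁻¹) ^ N'
  have hF0 : F ≠ 0 := mul_ne_zero (mul_ne_zero (pow_ne_zero _ hh) hQ0) (pow_ne_zero _ hfz0)
  have hFinv : ∀ τ ∈ G0, τ F = F := by
    intro τ hτ
    have h1 : τ Q = Q := by
      apply map_list_prod'
      intro s hs
      rw [map_add, map_one, H.phi_inv s (hL1 s hs).2.2.1 τ hτ]
    simp only [F]
    rw [map_mul, map_mul, map_pow, map_pow, hhG τ hτ, h1, HF.inv τ hτ]
  have hFov : ∀ w : AddValuation L (WithTop ℤ),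
      ov w F = (N' * Q₀ : ℕ) * ov w h + (Ls.map fun s => ov w (1 + phi t x0 s)).sum
        + N' * (ov w f - ∑ j, (μ j : ℤ) * ov w (t (Sum.inr j))) := by
    intro w
    simp only [F]
    rw [ov_mul w (mul_ne_zero (pow_ne_zero _ hh) hQ0) (pow_ne_zero _ hfz0),
      ov_mul w (pow_ne_zero _ hh) hQ0, ov_pow w hh, ov_pow w hfz0,
      ov_mul w hf0 (inv_ne_zero hz0), ov_inv, hzdef, ov_prod _ _ fun j _ => pow_ne_zero _ (ht0 _)]
    have h1 : ov w Q = (Ls.map fun s => ov w (1 + phi t x0 s)).sum := ov_list_prod w Ls _ hne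
    rw [h1]
    have h2 : ∑ j, ov w (t (Sum.inr j) ^ μ j) = ∑ j, (μ j : ℤ) * ov w (t (Sum.inr j)) :=
      Finset.sum_congr rfl fun j _ => ov_pow w (ht0 _) _
    rw [h2]
    ring
  obtain ⟨φ, hφ0, hφ⟩ := H.exists_norm F hFinv hF0
  have hJpos : 0 < J.factorial := J.factorial_pos
  have hN'pos : 0 < N' := by omega
  have hnpos : (0 : ℚ) < ((N' * Q₀ * J.factorial : ℕ) : ℚ) := by
    have : 0 < N' * Q₀ * J.factorial := Nat.mul_pos (Nat.mul_pos hN'pos hQ₀) hJpos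
    exact_mod_cast this
  refine ⟨r * Q₀, ψ, φ, hloc, hφ0, ?_, ?_⟩
  · -- the complement is klt where `E ≠ 0`
    intro v m k' hv hover hE hm hk'
    obtain ⟨w, e, he, hw1, hvw⟩ := exists_extension (L := L) v hv.normalized
    have heQ : (0 : ℚ) < e := by exact_mod_cast he
    have hb : ∀ τ ∈ G, ov w (τ F) < (N' * Q₀ : ℕ) * (e * (1 + m)) := by
      intro τ hτ
      set w1 := w.comap (τ : L →+* L) with hw1def
      have hw1n := comap_normalized hw1 τ
      have hvw1 : ∀ f : K, w1 (algebraMap K L f) = e • v f := fun f => H.twist hvw hτ f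
      have hdiv := isDivisorial_of_ext hv hw1n hvw1
      obtain ⟨h1, h0⟩ := htw v w e hover hvw τ hτ
      have hf := formOrder_transfer hd H.trdegK H.trdegL hv hw1n he hvw1 hpull hm
      have hf2 := formOrder_smul' hd H.trdegL hdiv hf (inv_ne_zero hh)
      rw [smul_smul, inv_mul_cancel₀ hh, one_smul, ov_inv] at hf2
      set M : ℤ := e * (1 + m) - 1 + -ov w1 h with hM
      have hκ : (κ : ℤ) + 1 ≤ Q₀ := by exact_mod_cast HF.κ_lt
      have hcore := (core_positivity hd H.coords H.g_ne H.x0_eq hdiv h1 h0 hf2 Ls hLlen hLs hL2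
        ((N' : ℤ) * (Q₀ - κ)) (by
          have h2 : (2 * ((q : ℤ) + k)) < N' := by exact_mod_cast hNbig
          have h3 : (0 : ℤ) ≤ N' := by positivity
          nlinarith)).2
      have hkey := HF.key w1 M hdiv h1 h0 (hE w1 e he hw1n hvw1) hf2
      have h2 : ov w (τ F) = ov w1 F := rfl
      rw [h2, hFov]
      have h3 : (N' : ℤ) * (ov w1 f - ∑ j, (μ j : ℤ) * ov w1 (t (Sum.inr j)))
          ≤ N' * (κ * (M + 1)) :=
        mul_le_mul_of_nonneg_left (by linarith only [hkey]) (by positivity)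
      have h4 : ((N' * Q₀ : ℕ) : ℤ) * (e * (1 + m))
          = (N' * Q₀ : ℕ) * ov w1 h + (N' : ℤ) * (Q₀ - κ) * (M + 1) + N' * (κ * (M + 1)) := by
        rw [hM]; push_cast; ring
      rw [h4]
      linarith only [hcore, h3]
    have h1 := (hφ w v e hvw).2 _ hb
    rw [ov_eq_of v hk'] at h1
    have h2 : (e : ℚ) * k' < J.factorial * ((N' * Q₀ : ℕ) * (e * (1 + m))) := by
      exact_mod_cast h1
    have h3 : (k' : ℚ) / ((N' * Q₀ * J.factorial : ℕ) : ℚ) < 1 + m := by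
      rw [div_lt_iff₀ hnpos]
      have h4 : (e : ℚ) * k' < e * ((1 + m) * ((N' * Q₀ * J.factorial : ℕ) : ℚ)) := by
        refine lt_of_lt_of_le h2 (le_of_eq ?_)
        push_cast; ring
      exact lt_of_mul_lt_mul_left h4 heQ.le
    linarith only [h3]
  · -- effectivity on every model
    intro v k' l hv hover hE hk' hl
    obtain ⟨w, e, he, hw1, hvw⟩ := exists_extension (L := L) v hv.normalized
    have heQ : (0 : ℚ) < e := by exact_mod_cast he
    set ρ : ℚ := (l : ℚ) / (r * Q₀ : ℕ) with hρ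
    have hb : ∀ τ ∈ G, ⌈((N' * Q₀ : ℕ) : ℚ) * (e * ρ)⌉ ≤ ov w (τ F) := by
      intro τ hτ
      rw [Int.ceil_le]
      set w1 := w.comap (τ : L →+* L) with hw1def
      have hcr := hval w1 v e hv (fun f => H.twist hvw hτ f)
      rw [ov_eq_of v hl] at hcr
      obtain ⟨h1, h0⟩ := htw v w e hover hvw τ hτ
      have hE1 : w1 E = 0 := hE w1 e he (comap_normalized hw1 τ) fun f => H.twist hvw hτ f
      have h1' : ∀ i, 0 ≤ ov w1 (t i) := fun i => (nonneg_iff w1 (ht0 i)).1 (h1 i)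
      have h0' : 0 ≤ ov w1 x0 := (nonneg_iff w1 H.x0_ne).1 h0
      have h2 : ov w (τ F) = ov w1 F := rfl
      rw [h2, hFov]
      have h3 := list_sum_ge Ls (fun s => ov w1 (1 + phi t x0 s))
        (-(|C| * ∑ j, (c j : ℝ) * ov w1 (t (Sum.inr j)))) fun s hs =>
          phi_lower H h1' h0' hcpos (hL1 s hs).1 (hL1 s hs).2.2.2 (hne s hs)
      rw [hLlen] at h3
      set σ : ℝ := ∑ j, (c j : ℝ) * ov w1 (t (Sum.inr j)) with hσ
      have hσ0 : 0 ≤ σ := Finset.sum_nonneg fun j _ => mul_nonneg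
        (by exact_mod_cast (hcpos j).le) (by exact_mod_cast h1' _)
      have h4 : ((e * ρ : ℚ) : ℝ) = ov w1 h - σ + (ov w1 f : ℝ) / Q₀ := by
        have h40 : (e * ρ : ℚ) = ov w1 h - ∑ j, c j * ov w1 (t (Sum.inr j))
            + (ov w1 f : ℚ) / Q₀ := by
          rw [hρ, ← mul_div_assoc, hcr, mul_div_cancel_left₀ _ hrQ]
        rw [h40]; push_cast; rfl
      have h5 : (2 * ((q : ℝ) + k) * |C|) * σ ≤ N' * σ :=
        mul_le_mul_of_nonneg_right hN0 hσ0
      have h8 : ((∑ j, (μ j : ℤ) * ov w1 (t (Sum.inr j)) : ℤ) : ℝ) ≤ (Q₀ - 1) * σ := by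
        push_cast
        rw [hσ, Finset.mul_sum]
        refine Finset.sum_le_sum fun j _ => ?_
        have h9 : ((μ j : ℚ) * ov w1 (t (Sum.inr j)) : ℚ)
            ≤ (Q₀ - 1) * c j * ov w1 (t (Sum.inr j)) :=
          HF.le w1 (isDivisorial_of_ext hv (comap_normalized hw1 τ)
            (fun f => H.twist hvw hτ f)) h1 h0 hE1 j
        have h10 : (((μ j : ℚ) * ov w1 (t (Sum.inr j)) : ℚ) : ℝ)
            ≤ (((Q₀ - 1) * c j * ov w1 (t (Sum.inr j)) : ℚ) : ℝ) := by exact_mod_cast h9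
        push_cast at h10
        rw [← mul_assoc]
        exact h10
      set SL : ℤ := (Ls.map fun s => ov w1 (1 + phi t x0 s)).sum with hSL
      set SM : ℤ := ∑ j, (μ j : ℤ) * ov w1 (t (Sum.inr j)) with hSM
      have h6 : (((N' * Q₀ : ℕ) : ℚ) * (e * ρ) : ℚ)
          ≤ (((N' * Q₀ : ℕ) * ov w1 h + SL + N' * (ov w1 f - SM) : ℤ) : ℚ) := by
        have h7 : ((((N' * Q₀ : ℕ) : ℚ) * (e * ρ) : ℚ) : ℝ)
            ≤ ((((N' * Q₀ : ℕ) * ov w1 h + SL + N' * (ov w1 f - SM) : ℤ) : ℚ) : ℝ) := by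
          rw [Rat.cast_mul, h4, Rat.cast_intCast]
          push_cast
          have hQR : (Q₀ : ℝ) ≠ 0 := by exact_mod_cast hQ₀.ne'
          have h11 : (N' : ℝ) * Q₀ * (ov w1 h - σ + (ov w1 f : ℝ) / Q₀)
              = N' * Q₀ * ov w1 h - N' * Q₀ * σ + N' * ov w1 f := by
            field_simp
          rw [h11]
          have h12 : (N' : ℝ) * SM ≤ N' * ((Q₀ - 1) * σ) :=
            mul_le_mul_of_nonneg_left h8 (by positivity)
          push_cast at h3
          nlinarith only [h5, h3, h12]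
        exact_mod_cast h7
      exact_mod_cast h6
    have h1 := (hφ w v e hvw).1 _ hb
    rw [ov_eq_of v hk'] at h1
    have h2 : (J.factorial : ℚ) * (((N' * Q₀ : ℕ) : ℚ) * (e * ρ)) ≤ e * k' := by
      have h3 : (J.factorial : ℚ) * (⌈((N' * Q₀ : ℕ) : ℚ) * (e * ρ)⌉ : ℚ) ≤ e * k' := by
        exact_mod_cast h1
      refine le_trans ?_ h3
      exact mul_le_mul_of_nonneg_left (Int.le_ceil _) (by positivity)
    rw [le_div_iff₀ hnpos]
    have h4 : (e : ℚ) * (ρ * ((N' * Q₀ * J.factorial : ℕ) : ℚ)) ≤ e * k' := by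
      refine le_trans (le_of_eq ?_) h2
      push_cast; ring
    exact le_of_mul_le_mul_left h4 heQ

end Vale.Agent.P283.H646
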