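import Vale.Agent.P283.H646.CoordsF
import Vale.Agent.P283.H646.Defs

/-!
P283: the order of a polynomial along a divisorial valuation, in terms of the log discrepancy.
-/

set_option linter.style.haveILetI false

namespace Vale.Agent.P283.H646

open scoped KaehlerDifferential
open MvPolynomial Finset Vale.Agent.P283 Vale.Agent.P283.Q.H646

section Char

variable {k : ℕ} {L : Type} [Field L] [Algebra ℂ L] {u : Fin k → L}

/-- The action of a diagonal automorphism on polynomials. -/
theorem twist_aeval {τ : L ≃ₐ[ℂ] L} {χ : Fin k → ℂ} (hχ : ∀ i, τ (u i) = χ i • u i)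
    (p : MvPolynomial (Fin k) ℂ) :
    τ (aeval u p) = aeval u (∑ n ∈ p.support, monomial n ((∏ i, χ i ^ (n i)) * p.coeff n)) := by
  classical
  conv_lhs => rw [p.as_sum]
  rw [map_sum, map_sum, map_sum]
  apply Finset.sum_congr rfl
  intro n _
  rw [aeval_monomial, aeval_monomial, Finsupp.prod_fintype _ _ (by simp), map_mul,
    AlgEquiv.commutes, map_mul, map_prod, map_prod]
  have h2 : ∏ i, τ (u i ^ n i) = (∏ i, algebraMap ℂ L (χ i ^ n i)) * ∏ i, u i ^ n i := by
    rw [← Finset.prod_mul_distrib]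
    refine Finset.prod_congr rfl fun i _ => ?_
    rw [map_pow, hχ, Algebra.smul_def, mul_pow, map_pow]
  rw [h2]
  ring

/-- If a polynomial in `u` is a semi-invariant then all its monomials have the same character. -/
theorem char_eq (hu : AlgebraicIndependent ℂ u) {τ : L ≃ₐ[ℂ] L} {χ : Fin k → ℂ}
    (hχ : ∀ i, τ (u i) = χ i • u i)
    {p : MvPolynomial (Fin k) ℂ} {c : ℂ} (h : τ (aeval u p) = c • aeval u p)
    {m : Fin k →₀ ℕ} (hm : m ∈ p.support) : ∏ i, χ i ^ (m i) = c := by
  classical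
  have h1 := twist_aeval hχ p
  set p' : MvPolynomial (Fin k) ℂ := ∑ n ∈ p.support,
    monomial n ((∏ i, χ i ^ (n i)) * p.coeff n) with hp'
  have h2 : aeval u p' = aeval u (C c * p) := by
    rw [← h1, h, map_mul, algHom_C, Algebra.smul_def]
  have h3 := hu h2
  have h4 := congrArg (coeff m) h3
  rw [coeff_C_mul] at h4
  have h5 : coeff m p' = (∏ i, χ i ^ (m i)) * p.coeff m := by
    simp only [hp', coeff_sum, coeff_monomial, Finset.sum_ite_eq', hm, if_true]
  rw [h5] at h4
  exact mul_right_cancel₀ (mem_support_iff.1 hm) h4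

/-- `F / z^ν` is invariant under a diagonal automorphism if `F` is semi-invariant and `z^ν` is one
of its monomials. -/
theorem quot_inv (hu : AlgebraicIndependent ℂ u) (hu0 : ∀ i, u i ≠ 0) {τ : L ≃ₐ[ℂ] L}
    {χ : Fin k → ℂ} (hχ : ∀ i, τ (u i) = χ i • u i)
    {p : MvPolynomial (Fin k) ℂ} {c : ℂ} (h : τ (aeval u p) = c • aeval u p)
    {m : Fin k →₀ ℕ} (hm : m ∈ p.support) :
    τ (aeval u p * (∏ j, u j ^ m j)⁻¹) = aeval u p * (∏ j, u j ^ m j)⁻¹ := by
  classical
  have h1 := char_eq hu hχ h hm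
  have h3 : τ (∏ j, u j ^ (m j)) = algebraMap ℂ L c * ∏ j, u j ^ (m j) := by
    rw [← h1, map_prod, map_prod, ← Finset.prod_mul_distrib]
    refine Finset.prod_congr rfl fun j _ => ?_
    rw [map_pow, hχ j, Algebra.smul_def, mul_pow, map_pow]
  have hχ0 : ∀ j, χ j ≠ 0 := by
    intro j h
    have h5 := hχ j
    rw [h, zero_smul] at h5
    exact hu0 j ((map_eq_zero τ).1 h5)
  have hc : c ≠ 0 := by
    rw [← h1]
    exact Finset.prod_ne_zero_iff.2 fun j _ => pow_ne_zero _ (hχ0 j)
  have h6 : algebraMap ℂ L c ≠ 0 := (map_ne_zero _).2 hc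
  have h7 : ∏ j, u j ^ (m j) ≠ 0 := Finset.prod_ne_zero_iff.2 fun j _ => pow_ne_zero _ (hu0 j)
  rw [map_mul, map_inv₀, h, h3, Algebra.smul_def]
  field_simp

end Char

section Fam

variable {q k : ℕ} {L : Type} [Field L] [Algebra ℂ L] {t : Fin q ⊕ Fin k → L}

theorem indep_inr (ht : IsCoords t) : AlgebraicIndependent ℂ fun j => t (Sum.inr j) :=
  ht.ind.comp Sum.inr Sum.inr_injective

/-- **The key inequality.** -/
theorem key_ineq (hd : 0 < q + k) (ht : IsCoords t) {F P : MvPolynomial (Fin k) ℂ} (hF : F ≠ 0)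
    {α : Fin k →₀ ℕ} (hsep : ∀ ν ∈ F.support, ¬ α ≤ ν → eval (fun j => (ν j : ℂ)) P = 0)
    {w : AddValuation L (WithTop ℤ)} {m : ℤ} (hw : IsDivisorial (q + k) w)
    (hE : w (aeval (fun j => t (Sum.inr j)) (quo P F α)) = 0)
    (hm : FormOrder (q + k) w (logForm t) m) {N : ℕ} (hN : P.totalDegree ≤ N) :
    ov w (aeval (fun j => t (Sum.inr j)) F)
      ≤ ∑ j, (α j : ℤ) * ov w (t (Sum.inr j)) + N * (m + 1) := by
  classical
  set u : Fin k → L := fun j => t (Sum.inr j) with hu
  have hind := indep_inr ht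
  have hu0 : ∀ j, u j ≠ 0 := fun j => ht.ne_zero _
  have hf0 : aeval u F ≠ 0 := by
    intro h
    exact hF (hind (by rw [h, map_zero]))
  haveI := ht.essFiniteType
  haveI : CharZero L := charZero_of_injective_algebraMap (algebraMap ℂ L).injective
  have htr : Algebra.trdeg ℂ L ≤ ((q + k : ℕ) : Cardinal) := by
    rw [ht.trdeg_eq]
    simp only [Fintype.card_sum, Fintype.card_fin, Nat.cast_add, Std.le_refl]
  obtain ⟨B', hB'⟩ := exists_kaehler_basis t ht.isTranscendenceBasis
  let EE : Fin (q + k) ≃ Fin q ⊕ Fin k := (finSumFinEquiv (m := q) (n := k)).symm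
  let B := B'.reindex EE.symm
  have hB : ∀ i, B i = KaehlerDifferential.D ℂ L ((t ∘ EE) i) := by
    intro i
    simp only [B, Module.Basis.reindex_apply, Equiv.symm_symm, hB', Function.comp]
  have hpd : ∀ i, pd B i = pd B' (EE i) := by
    intro i
    ext f
    simp only [pd_apply, B, Module.Basis.repr_reindex_apply, Equiv.symm_symm]
  have htt : ∀ i, (t ∘ EE) i ≠ 0 := fun i => ht.ne_zero _
  have hm' : FormOrder (q + k) w (dlogForm (t ∘ EE)) m := hm
  have hm1 := dlog_order hd htr hw _ htt hm'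
  have hθ : ∀ i f, w f ≤ w (t i * pd B' i f) + ((m + 1 : ℤ) : WithTop ℤ) := by
    intro i f
    have := dlog_derivation hd htr hw htt B hB hm' (EE.symm i) f
    rw [hpd] at this
    simpa only [AddValuation.map_mul, WithTop.coe_add, WithTop.coe_one, ge_iff_le,
      Function.comp_apply, Equiv.apply_symm_apply] using this
  have hD : ∀ j i, u j * pd B' (Sum.inr j) (u i) = if i = j then u i else 0 := by
    intro j i
    simp only [hu]
    rw [pd_self B' hB']
    by_cases h : i = j
    · subst h; simp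
    · have h' : ¬ (Sum.inr i : Fin q ⊕ Fin k) = Sum.inr j := fun hh => h (Sum.inr_injective hh)
      rw [if_neg h, if_neg h', mul_zero]
  exact ov_le (D := fun j => pd B' (Sum.inr j)) hw.const hD (by omega)
    (fun j f => hθ (Sum.inr j) f) hu0 F P N hN α hsep hf0 hE

end Fam

section Fall

/-- The polynomial separating `μ` from the exponents `ν` with `¬ μ ≤ ν`. -/
noncomputable def fall {k : ℕ} (μ : Fin k →₀ ℕ) : MvPolynomial (Fin k) ℂ :=
  ∏ j, ∏ i ∈ Finset.range (μ j), (X j - C (i : ℂ))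

theorem totalDegree_fall {k : ℕ} (μ : Fin k →₀ ℕ) : (fall μ).totalDegree ≤ μ.degree := by
  classical
  unfold fall
  refine (totalDegree_finsetProd _ _).trans ?_
  rw [Finsupp.degree_eq_sum]
  refine Finset.sum_le_sum fun j _ => ?_
  refine (totalDegree_finsetProd _ _).trans ?_
  refine (Finset.sum_le_card_nsmul _ _ 1 ?_).trans (by simp)
  intro i _
  refine (totalDegree_sub _ _).trans ?_
  rw [totalDegree_X, totalDegree_C]
  simp

theorem eval_fall {k : ℕ} (μ : Fin k →₀ ℕ) (ν : Fin k → ℂ) :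
    eval ν (fall μ) = ∏ j, ∏ i ∈ Finset.range (μ j), (ν j - (i : ℂ)) := by
  unfold fall
  simp only [map_prod, map_sub, eval_X, eval_C]

theorem eval_fall_nat {k : ℕ} (μ ν : Fin k →₀ ℕ) :
    eval (fun j => (ν j : ℂ)) (fall μ) = ∏ j, ((ν j).descFactorial (μ j) : ℂ) := by
  rw [eval_fall]
  refine Finset.prod_congr rfl fun j _ => ?_
  have h : ∀ a n : ℕ, ∏ i ∈ Finset.range a, ((n : ℂ) - (i : ℂ)) = (n.descFactorial a : ℂ) := by
    intro a n
    induction a with
    | zero => simp
    | succ a ih =>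
      rw [Finset.prod_range_succ, ih, Nat.descFactorial_succ]
      by_cases hle : a ≤ n
      · push_cast [Nat.cast_sub hle]
        ring
      · push Not at hle
        rw [Nat.descFactorial_of_lt hle]
        simp
  exact h _ _

theorem eval_fall_eq_zero {k : ℕ} (μ ν : Fin k →₀ ℕ) (h : ¬ μ ≤ ν) :
    eval (fun j => (ν j : ℂ)) (fall μ) = 0 := by
  classical
  rw [eval_fall_nat]
  obtain ⟨j, hj⟩ : ∃ j, ν j < μ j := by
    by_contra hcon
    push Not at hcon
    exact h hcon
  refine Finset.prod_eq_zero (Finset.mem_univ j) ?_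
  rw [Nat.descFactorial_of_lt hj]
  simp

theorem eval_fall_ne_zero {k : ℕ} (μ : Fin k →₀ ℕ) :
    eval (fun j => (μ j : ℂ)) (fall μ) ≠ 0 := by
  rw [eval_fall_nat]
  refine Finset.prod_ne_zero_iff.2 fun j _ => ?_
  rw [Nat.descFactorial_self]
  exact_mod_cast (Nat.factorial_pos _).ne'

/-- The quotient of `P(θ) F` by `z^α` is the partial derivative `∂^α F`. -/
theorem quo_fall {k : ℕ} (α : Fin k →₀ ℕ) (F : MvPolynomial (Fin k) ℂ) :
    quo (fall α) F α = pderivs α F := by
  classical
  ext n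
  unfold quo pderivs
  rw [coeff_divMonomial, coeff_opP, eval_fall_nat, coeff_sum]
  simp only [coeff_monomial]
  rw [Finset.sum_eq_single (α + n)]
  · rw [if_pos (by rw [add_tsub_cancel_left])]
  · intro ν _ hne
    split_ifs with h
    · -- here `ν - α = n` with `ν ≠ α + n`, so `α ≤ ν` fails
      have hle : ¬ α ≤ ν := by
        intro hle
        apply hne
        rw [← h, add_tsub_cancel_of_le hle]
      obtain ⟨j, hj⟩ : ∃ j, ν j < α j := by
        by_contra hcon
        push Not at hcon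
        exact hle hcon
      have h0 : ∏ j, ((ν j).descFactorial (α j) : ℂ) = 0 := by
        refine Finset.prod_eq_zero (Finset.mem_univ j) ?_
        rw [Nat.descFactorial_of_lt hj]
        simp
      rw [h0, mul_zero]
    · rfl
  · intro h
    rw [notMem_support_iff.1 h, zero_mul]
    simp

end Fall

end Vale.Agent.P283.H646
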