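import Vale.Agent.P283.H646.Transfer

/-!
P283: bounded klt complements for boundaries `∑ b_j div(z_j) + (1 / Q₀) div(f)`, `f` arbitrary
of small (log) multiplicity, on the quotients of `x₀ x₁ ⋯ x_q = g(z₁, …, z_k)`.
-/

set_option linter.style.haveILetI false

namespace Vale.Agent.P283.H646

open scoped KaehlerDifferential
open MvPolynomial Finset Vale.Agent.P283 Vale.Agent.P283.Q.H646

theorem core_qk (q k : ℕ) (hd : 0 < q + k) (J : ℕ) : ∃ c₀ : ℕ, 0 < c₀ ∧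
    ∀ ε : ℝ, 0 < ε → ∀ N' Q₀ : ℕ, 0 < Q₀ → (c₀ : ℝ) * (1 + 1 / ε) ≤ N' →
    ∀ (K L : Type) [Field K] [Field L] [Algebra ℂ K] [Algebra ℂ L]
      [Algebra K L] [IsScalarTower ℂ K L] (x : Fin (q + 1) → L) (z : Fin k → L)
      (g : MvPolynomial (Fin k) ℂ) (b : Fin k → ℚ) (G : Subgroup (L ≃ₐ[ℂ] L))
      (A : Subalgebra ℂ K), Q.IsQuotient x z g b G A →
    ∀ (G0 : Subgroup (L ≃ₐ[ℂ] L)) (v : Fin k → (Fin k → ℂ)), G0 ≤ G → G0.relIndex G ≤ J →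
      LinearIndependent ℂ v → (∀ j, b j ≠ 0 → v j = Pi.single j 1) →
      (∀ τ ∈ G0, ∀ i, ∃ c : ℂ, τ (x i) = c • x i) →
      (∀ τ ∈ G0, ∀ j, ∃ c : ℂ, τ (Abs.lin z (v j)) = c • Abs.lin z (v j)) →
    ∀ (κ : ℕ) (μ : Fin k → ℕ) (f E : L), (∀ τ ∈ G, ∃ c : ℂ, τ f = c • f) →
      E ∈ Abs.rY x z → E ≠ 0 →
      FData q k (Abs.nT x z v) (x 0) G0 (fun j => 1 - b j) Q₀ κ μ f E →
    ∀ D : Fin (q + k) → Derivation ℂ K K, (∃ f, Q.jac D f ≠ 0) →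
    ∀ B : Q.QDivisor A, (∀ p, 0 ≤ B.coeff p) → Q.H646.IsCrepantF x z b f Q₀ A D B →
      Q.IsEpsLC D B ε → ∀ S : Set (Ideal A), S ⊆ goodPts x z G A E →
      Q.H646.HasKltComplementOver D B (N' * Q₀ * J.factorial) S := by
  obtain ⟨c₀, hc₀, hmain⟩ := result_coords q k hd J
  refine ⟨c₀, hc₀, ?_⟩
  intro ε hε N' Q₀ hQ₀ hN K L _ _ _ _ _ _ x z g b G A H G0 v hle hidx hv hvb hdiag0 hdiag κ μ f E
    hfG hEmem hE0 hFD D hD B hB hcr hlc S hS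
  have hcoords := isCoords_of_quotient H
  have halg : Algebra.IsAlgebraic K L := isAlgebraic_of_quotient H
  have htr : Algebra.trdeg ℂ L = ((q + k : ℕ) : Cardinal) := by
    rw [hcoords.trdeg_eq]; simp only [Fintype.card_sum, Fintype.card_fin, Nat.cast_add]
  obtain ⟨b0, hb0, hb0'⟩ := exists_common_basis (K := K) (L := L) htr
  obtain ⟨BK, hBK⟩ := exists_kaehler_basis b0 hb0
  obtain ⟨BL, hBL⟩ := exists_kaehler_basis _ hb0'
  obtain ⟨-, hω, hDω⟩ := wedgeD_eq_jac BK hBK D hD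
  have hx : ∀ l, Fin.tail x l ≠ 0 := fun l => hcoords.ne_zero (Sum.inl l)
  have hz : ∀ j, z j ≠ 0 := fun j => hcoords.ne_zero (Sum.inr j)
  have hfG' : ∀ τ ∈ G, ∃ κ : ℂ, τ f = algebraMap ℂ L κ * f := by
    intro τ hτ
    obtain ⟨c, hc⟩ := hfG τ hτ
    exact ⟨c, by rw [hc, Algebra.smul_def]⟩
  exact concl_of_strong H hω hDω hB hEmem hE0 (hmain ε hε N' Q₀ hQ₀ hN K L x z g b G A H G0 v hle
    hidx hv hvb hdiag0 hdiag κ μ f E hfG' hFD _ hω (toOld B)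
    (crepant_oldF x z b f Q₀ hx hz hFD.f_ne BK hBK BL hBL hω hDω hcr)
    (epsLC_old hω hDω hlc)) S hS

theorem merge_qk (d : ℕ) (T : ℕ → ℕ → ℝ → ℕ → ℕ → Prop)
    (h : ∀ q k, q + k = d → ∃ c₀ P : ℕ, 0 < c₀ ∧ 0 < P ∧ ∀ ε : ℝ, 0 < ε → ∀ N' Q₀ : ℕ,
      0 < Q₀ → (c₀ : ℝ) * (1 + 1 / ε) ≤ N' → T q k ε Q₀ (N' * Q₀ * P)) :
    ∃ c : ℕ, 0 < c ∧ ∀ ε : ℝ, 0 < ε → ∀ Q₀ n : ℕ, 0 < Q₀ → c * Q₀ ∣ n →
      (c : ℝ) * Q₀ * (1 + 1 / ε) ≤ n → ∀ q k, q + k = d → T q k ε Q₀ n := by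
  classical
  have key : ∀ q k : ℕ, ∃ c₀ P : ℕ, 0 < c₀ ∧ 0 < P ∧ ∀ ε : ℝ, 0 < ε → ∀ N' Q₀ : ℕ,
      0 < Q₀ → (c₀ : ℝ) * (1 + 1 / ε) ≤ N' → q + k = d → T q k ε Q₀ (N' * Q₀ * P) := by
    intro q k
    by_cases hqk : q + k = d
    · obtain ⟨c₀, P, hc₀, hP, h1⟩ := h q k hqk
      exact ⟨c₀, P, hc₀, hP, fun ε hε N' Q₀ hQ hN _ => h1 ε hε N' Q₀ hQ hN⟩
    · exact ⟨1, 1, one_pos, one_pos, fun ε hε N' Q₀ hQ hN h' => absurd h' hqk⟩
  choose c₀ P hc₀ hP hkey using key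
  refine ⟨∏ p ∈ Finset.HasAntidiagonal.antidiagonal d, (c₀ p.1 p.2 * P p.1 p.2),
    Finset.prod_pos fun p _ => Nat.mul_pos (hc₀ _ _) (hP _ _), ?_⟩
  intro ε hε Q₀ n hQ₀ hdvd hn q k hqk
  set c := ∏ p ∈ Finset.HasAntidiagonal.antidiagonal d, (c₀ p.1 p.2 * P p.1 p.2) with hc
  have hcpos : 0 < c := Finset.prod_pos fun p _ => Nat.mul_pos (hc₀ _ _) (hP _ _)
  have hmem : (q, k) ∈ Finset.HasAntidiagonal.antidiagonal d :=
    Finset.HasAntidiagonal.mem_antidiagonal.mpr hqk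
  obtain ⟨c', hc'⟩ : c₀ q k * P q k ∣ c :=
    Finset.dvd_prod_of_mem (fun p : ℕ × ℕ => c₀ p.1 p.2 * P p.1 p.2) hmem
  have hc'pos : 0 < c' := by
    rcases Nat.eq_zero_or_pos c' with h1 | h1
    · rw [h1, mul_zero] at hc'
      omega
    · exact h1
  obtain ⟨N₁, rfl⟩ := hdvd
  have hcR : (0 : ℝ) < c := by exact_mod_cast hcpos
  have hQR : (0 : ℝ) < Q₀ := by exact_mod_cast hQ₀
  have hN₁ : 1 + 1 / ε ≤ N₁ := by
    push_cast at hn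
    have h1 : (c : ℝ) * Q₀ * (1 + 1 / ε) ≤ (c : ℝ) * Q₀ * N₁ := hn
    exact le_of_mul_le_mul_left h1 (mul_pos hcR hQR)
  have hN : (c₀ q k : ℝ) * (1 + 1 / ε) ≤ ((c₀ q k * c' * N₁ : ℕ) : ℝ) := by
    have h1 : (0 : ℝ) ≤ c₀ q k := Nat.cast_nonneg _
    have h2 : (c₀ q k : ℝ) * (1 + 1 / ε) ≤ c₀ q k * N₁ := mul_le_mul_of_nonneg_left hN₁ h1
    refine h2.trans ?_
    have h3 : c₀ q k * N₁ ≤ c₀ q k * c' * N₁ := by
      calc c₀ q k * N₁ = c₀ q k * 1 * N₁ := by ring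
        _ ≤ c₀ q k * c' * N₁ := by gcongr; omega
    exact_mod_cast h3
  have h1 := hkey q k ε hε (c₀ q k * c' * N₁) Q₀ hQ₀ hN hqk
  have h2 : c * Q₀ * N₁ = c₀ q k * c' * N₁ * Q₀ * P q k := by rw [hc']; ring
  rw [h2]
  exact h1

/-- A polynomial in the coordinates of `Y` which are nonnegative. -/
theorem rY_nonneg {q k : ℕ} {L : Type} [Field L] [Algebra ℂ L] {x : Fin (q + 1) → L}
    {z : Fin k → L} {w : AddValuation L (WithTop ℤ)}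
    (hconst : ∀ c : ℂ, c ≠ 0 → w (algebraMap ℂ L c) = 0) (hx : ∀ i, 0 ≤ w (x i))
    (hz : ∀ j, 0 ≤ w (z j)) {y : L} (hy : y ∈ Abs.rY x z) : 0 ≤ w y := by
  unfold Abs.rY at hy
  induction hy using Algebra.adjoin_induction with
  | mem y hy =>
    rcases hy with ⟨i, rfl⟩ | ⟨j, rfl⟩
    · exact hx i
    · exact hz j
  | algebraMap r =>
    by_cases hr : r = 0
    · rw [hr]; simp
    · rw [hconst r hr]
  | add y z _ _ hy hz => exact nonneg_add w hy hz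
  | mul y z _ _ hy hz => exact nonneg_mul w hy hz

theorem nonneg_x {q k : ℕ} {L : Type} [Field L] [Algebra ℂ L] {x : Fin (q + 1) → L}
    {z : Fin k → L} {v : Fin k → (Fin k → ℂ)} {w : AddValuation L (WithTop ℤ)}
    (h1 : ∀ i, 0 ≤ w (Abs.nT x z v i)) (h0 : 0 ≤ w (x 0)) : ∀ i, 0 ≤ w (x i) := by
  intro i
  refine Fin.cases h0 (fun l => ?_) i
  exact h1 (Sum.inl l)

/-- **Part (1).** -/
theorem main_lc (d J : ℕ) (hd : 0 < d) : ∃ c : ℕ, 0 < c ∧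
    ∀ ε : ℝ, 0 < ε → ∀ Q₀ n : ℕ, 0 < Q₀ → c * Q₀ ∣ n → (c : ℝ) * Q₀ * (1 + 1 / ε) ≤ n →
    ∀ q k : ℕ, q + k = d → ∀ (K L : Type) [Field K] [Field L] [Algebra ℂ K] [Algebra ℂ L]
      [Algebra K L] [IsScalarTower ℂ K L] (x : Fin (q + 1) → L) (z : Fin k → L)
      (g : MvPolynomial (Fin k) ℂ) (b : Fin k → ℚ) (G : Subgroup (L ≃ₐ[ℂ] L))
      (A : Subalgebra ℂ K), Q.IsQuotient x z g b G A →
    ∀ G0 : Subgroup (L ≃ₐ[ℂ] L), G0 ≤ G → G0.relIndex G ≤ J →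
      (∀ τ ∈ G0, ∀ i, ∃ c : ℂ, τ (x i) = c • x i) →
      (∀ τ ∈ G0, ∀ j, ∃ c : ℂ, τ (z j) = c • z j) →
    ∀ f ∈ Q.H646.OY x z, ∀ E ∈ Q.H646.OY x z, f ≠ 0 → E ≠ 0 →
      (∀ τ ∈ G, ∃ c : ℂ, τ f = c • f) →
    ∀ (κ : ℕ) (μ : Fin k → ℕ), κ < Q₀ →
      (∀ τ ∈ G0, τ (f / ∏ j, z j ^ μ j) = f / ∏ j, z j ^ μ j) →
      (∀ j, (μ j : ℚ) ≤ (Q₀ - 1) * (1 - b j) ∨ ∃ y ∈ Q.H646.OY x z, E = z j * y) →
      Q.H646.IsLcOn x z κ μ f E →
    ∀ D : Fin (q + k) → Derivation ℂ K K, (∃ f, Q.jac D f ≠ 0) →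
    ∀ B : Q.QDivisor A, (∀ p, 0 ≤ B.coeff p) → Q.H646.IsCrepantF x z b f Q₀ A D B →
      Q.IsEpsLC D B ε → Q.H646.HasKltComplementOver D B n
        {p | ∃ χ : Q.H646.OY x z →ₐ[ℂ] ℂ, Q.H646.IsImage x z A χ p ∧
          ∀ τ ∈ G, ∀ y : Q.H646.OY x z, (y : L) = τ E → χ y ≠ 0} := by
  classical
  have hm := merge_qk d (fun q k ε Q₀ n =>
    ∀ (K L : Type) [Field K] [Field L] [Algebra ℂ K] [Algebra ℂ L]
      [Algebra K L] [IsScalarTower ℂ K L] (x : Fin (q + 1) → L) (z : Fin k → L)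
      (g : MvPolynomial (Fin k) ℂ) (b : Fin k → ℚ) (G : Subgroup (L ≃ₐ[ℂ] L))
      (A : Subalgebra ℂ K), Q.IsQuotient x z g b G A →
    ∀ G0 : Subgroup (L ≃ₐ[ℂ] L), G0 ≤ G → G0.relIndex G ≤ J →
      (∀ τ ∈ G0, ∀ i, ∃ c : ℂ, τ (x i) = c • x i) →
      (∀ τ ∈ G0, ∀ j, ∃ c : ℂ, τ (z j) = c • z j) →
    ∀ f ∈ Q.H646.OY x z, ∀ E ∈ Q.H646.OY x z, f ≠ 0 → E ≠ 0 →
      (∀ τ ∈ G, ∃ c : ℂ, τ f = c • f) →
    ∀ (κ : ℕ) (μ : Fin k → ℕ), κ < Q₀ →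
      (∀ τ ∈ G0, τ (f / ∏ j, z j ^ μ j) = f / ∏ j, z j ^ μ j) →
      (∀ j, (μ j : ℚ) ≤ (Q₀ - 1) * (1 - b j) ∨ ∃ y ∈ Q.H646.OY x z, E = z j * y) →
      Q.H646.IsLcOn x z κ μ f E →
    ∀ D : Fin (q + k) → Derivation ℂ K K, (∃ f, Q.jac D f ≠ 0) →
    ∀ B : Q.QDivisor A, (∀ p, 0 ≤ B.coeff p) → Q.H646.IsCrepantF x z b f Q₀ A D B →
      Q.IsEpsLC D B ε → Q.H646.HasKltComplementOver D B n
        {p | ∃ χ : Q.H646.OY x z →ₐ[ℂ] ℂ, Q.H646.IsImage x z A χ p ∧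
          ∀ τ ∈ G, ∀ y : Q.H646.OY x z, (y : L) = τ E → χ y ≠ 0}) ?_
  · obtain ⟨c, hc, h⟩ := hm
    exact ⟨c, hc, fun ε hε Q₀ n hQ₀ hdvd hn q k hqk => h ε hε Q₀ n hQ₀ hdvd hn q k hqk⟩
  · intro q k hqk
    have hd' : 0 < q + k := by omega
    obtain ⟨c₀, hc₀, hcore⟩ := core_qk q k hd' J
    refine ⟨c₀, J.factorial, hc₀, J.factorial_pos, ?_⟩
    intro ε hε N' Q₀ hQ₀ hN K L _ _ _ _ _ _ x z g b G A H G0 hle hidx hdx hdz f hf E hE hf0 hE0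
      hfG κ μ hκ hinv hμ hlcY D hD B hB hcr hlc
    have hlin : ∀ j, Abs.lin z (Pi.single j 1 : Fin k → ℂ) = z j := fun j => Abs.lin_single z j
    have hnT : Abs.nT x z (fun j => Pi.single j 1) = Abs.cT x z := by
      funext i
      rcases i with l | j
      · rfl
      · exact hlin j
    have hcoords : IsCoords (Abs.cT x z) := Abs.coords H
    have hzj : ∀ j, z j ≠ 0 := fun j => hcoords.ne_zero (Sum.inr j)
    have hFD : FData q k (Abs.nT x z fun j => Pi.single j 1) (x 0) G0 (fun j => 1 - b j) Q₀ κ μ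
        f E := by
      rw [hnT]
      refine ⟨hf0, ?_, ?_, hκ, ?_, ?_⟩
      · intro w hconst h1 h0
        refine rY_nonneg (x := x) (z := z) hconst ?_ (fun j => h1 (Sum.inr j)) hf
        intro i
        exact Fin.cases h0 (fun l => h1 (Sum.inl l)) i
      · intro τ hτ
        have h2 := hinv τ hτ
        rw [div_eq_mul_inv] at h2
        exact h2
      · intro w hw h1 h0 hwE j
        have hz0 : 0 ≤ ov w (z j) := (nonneg_iff w (hzj j)).1 (h1 (Sum.inr j))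
        show (μ j : ℚ) * ov w (z j) ≤ (Q₀ - 1) * (1 - b j) * ov w (z j)
        rcases hμ j with h2 | ⟨y, hy, hEy⟩
        · exact mul_le_mul_of_nonneg_right h2 (by exact_mod_cast hz0)
        · -- `z_j` is invertible where `E ≠ 0`
          have h3 : ov w (z j) = 0 := by
            have hy0 : y ≠ 0 := fun h => hE0 (by rw [hEy, h, mul_zero])
            have h4 : 0 ≤ w y := rY_nonneg (x := x) (z := z) hw.const (fun i =>
              Fin.cases h0 (fun l => h1 (Sum.inl l)) i) (fun j => h1 (Sum.inr j)) hy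
            have h5 : 0 ≤ ov w y := (nonneg_iff w hy0).1 h4
            have h6 : ov w E = 0 := ov_eq_of w hwE
            rw [hEy, ov_mul w (hzj j) hy0] at h6
            omega
          rw [h3]; simp
      · intro w m hw h1 h0 hwE hm
        obtain ⟨D', hD', hlog⟩ := logForm_iff hcoords
        have h2 := hlcY D' hD' w m (ov w f) (fun j => ov w (z j)) (divisorial_iff.2 hw)
          (fun i => Fin.cases h0 (fun l => h1 (Sum.inl l)) i) (fun j => h1 (Sum.inr j)) hwE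
          (hlog w m hm) (fun j => (coe_ov w (hzj j)).symm) (coe_ov w hf0).symm
        show ov w f ≤ ∑ j, (μ j : ℤ) * ov w (z j) + κ * (m + 1)
        linarith
    refine hcore ε hε N' Q₀ hQ₀ hN K L x z g b G A H G0 (fun j => Pi.single j 1) hle hidx ?_
      (fun j _ => rfl) hdx ?_ κ μ f E hfG hE hE0 hFD D hD B hB hcr hlc _ (fun p hp => hp)
    · exact Pi.linearIndependent_single_one (Fin k) ℂ
    · intro τ hτ j
      rw [hlin]
      exact hdz τ hτ j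

/-- A polynomial in nonnegative functions. -/
theorem aeval_nonneg {k : ℕ} {L : Type} [Field L] [Algebra ℂ L] {u : Fin k → L}
    {w : AddValuation L (WithTop ℤ)}
    (hconst : ∀ c : ℂ, c ≠ 0 → w (algebraMap ℂ L c) = 0)
    (hu : ∀ j, 0 ≤ w (u j)) (p : MvPolynomial (Fin k) ℂ) : 0 ≤ w (aeval u p) := by
  induction p using MvPolynomial.induction_on with
  | C a =>
    rw [algHom_C]
    by_cases ha : a = 0
    · rw [ha]; simp
    · rw [hconst a ha]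
  | add p r hp hr =>
    rw [map_add]
    exact nonneg_add w hp hr
  | mul_X p j hp =>
    rw [map_mul, aeval_X]
    exact nonneg_mul w hp (hu j)

/-- **Part (2).** -/
theorem main_mult (d : ℕ) (hd : 0 < d) : ∃ c : ℕ, 0 < c ∧
    ∀ ε : ℝ, 0 < ε → ∀ Q₀ n : ℕ, 0 < Q₀ → c * Q₀ ∣ n → (c : ℝ) * Q₀ * (1 + 1 / ε) ≤ n →
    ∀ q k : ℕ, q + k = d → ∀ (K L : Type) [Field K] [Field L] [Algebra ℂ K] [Algebra ℂ L]
      [Algebra K L] [IsScalarTower ℂ K L] (x : Fin (q + 1) → L) (z : Fin k → L)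
      (g : MvPolynomial (Fin k) ℂ) (b : Fin k → ℚ) (G : Subgroup (L ≃ₐ[ℂ] L))
      (A : Subalgebra ℂ K), Q.IsQuotient x z g b G A →
    ∀ F : MvPolynomial (Fin k) ℂ,
      (∃ μ ∈ F.support, μ.degree < Q₀ ∧ ∀ j, (μ j : ℚ) ≤ (Q₀ - 1) * (1 - b j)) →
      (∀ τ ∈ G, ∃ c : ℂ, τ (aeval z F) = c • aeval z F) →
    ∀ D : Fin (q + k) → Derivation ℂ K K, (∃ f, Q.jac D f ≠ 0) →
    ∀ B : Q.QDivisor A, (∀ p, 0 ≤ B.coeff p) →
      Q.H646.IsCrepantF x z b (aeval z F) Q₀ A D B →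
      Q.IsEpsLC D B ε → Q.H646.HasKltComplementOver D B n
        {p | ∃ χ : Q.H646.OY x z →ₐ[ℂ] ℂ, Q.H646.IsImage x z A χ p ∧
          ∀ (y : Q.H646.OY x z) (j : Fin k), (y : L) = z j → χ y = 0} := by
  classical
  have hm := merge_qk d (fun q k ε Q₀ n =>
    ∀ (K L : Type) [Field K] [Field L] [Algebra ℂ K] [Algebra ℂ L]
      [Algebra K L] [IsScalarTower ℂ K L] (x : Fin (q + 1) → L) (z : Fin k → L)
      (g : MvPolynomial (Fin k) ℂ) (b : Fin k → ℚ) (G : Subgroup (L ≃ₐ[ℂ] L))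
      (A : Subalgebra ℂ K), Q.IsQuotient x z g b G A →
    ∀ F : MvPolynomial (Fin k) ℂ,
      (∃ μ ∈ F.support, μ.degree < Q₀ ∧ ∀ j, (μ j : ℚ) ≤ (Q₀ - 1) * (1 - b j)) →
      (∀ τ ∈ G, ∃ c : ℂ, τ (aeval z F) = c • aeval z F) →
    ∀ D : Fin (q + k) → Derivation ℂ K K, (∃ f, Q.jac D f ≠ 0) →
    ∀ B : Q.QDivisor A, (∀ p, 0 ≤ B.coeff p) →
      Q.H646.IsCrepantF x z b (aeval z F) Q₀ A D B →
      Q.IsEpsLC D B ε → Q.H646.HasKltComplementOver D B n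
        {p | ∃ χ : Q.H646.OY x z →ₐ[ℂ] ℂ, Q.H646.IsImage x z A χ p ∧
          ∀ (y : Q.H646.OY x z) (j : Fin k), (y : L) = z j → χ y = 0}) ?_
  · obtain ⟨c, hc, h⟩ := hm
    exact ⟨c, hc, fun ε hε Q₀ n hQ₀ hdvd hn q k hqk => h ε hε Q₀ n hQ₀ hdvd hn q k hqk⟩
  · intro q k hqk
    have hd' : 0 < q + k := by omega
    obtain ⟨J, hJ⟩ := Abs.exists_diag q k
    obtain ⟨c₀, hc₀, hcore⟩ := core_qk q k hd' J
    refine ⟨c₀, J.factorial, hc₀, J.factorial_pos, ?_⟩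
    intro ε hε N' Q₀ hQ₀ hN K L _ _ _ _ _ _ x z g b G A H F hF hFG D hD B hB hcr hlc
    obtain ⟨G0, v, hle, hidx, hv, hvb, hdiag0, hdiag⟩ := hJ K L x z g b G A H
    obtain ⟨F', ⟨μ, hμ, hdeg, hμle⟩, hFF⟩ := exists_newF v hv hvb H Q₀ F hF
    have hnT := Abs.isCoords_nT v hv H
    have hind := indep_inr hnT
    have hF'0 : F' ≠ 0 := by
      rintro rfl
      simp at hμ
    have hu0 : ∀ j, Abs.lin z (v j) ≠ 0 := fun j => hnT.ne_zero (Sum.inr j)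
    have hf0 : aeval z F ≠ 0 := by
      rw [← hFF]
      intro h
      exact hF'0 (hind (by rw [map_zero]; exact h))
    have hR : constantCoeff (quo (fall μ) F' μ) ≠ 0 := by
      rw [constantCoeff_quo]
      exact mul_ne_zero (mem_support_iff.1 hμ) (eval_fall_ne_zero μ)
    set E : L := aeval (fun j => Abs.lin z (v j)) (quo (fall μ) F' μ) with hEdef
    have hE0 : E ≠ 0 := by
      intro h
      have h1 : quo (fall μ) F' μ = 0 := hind (by rw [map_zero]; exact h)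
      rw [h1, map_zero] at hR
      exact hR rfl
    have hEmem : E ∈ Abs.rY x z := aeval_mem (fun j => Abs.lin_mem x z (v j)) _
    have hFD : FData q k (Abs.nT x z v) (x 0) G0 (fun j => 1 - b j) Q₀ μ.degree
        (fun j => μ j) (aeval z F) E := by
      refine ⟨hf0, ?_, ?_, hdeg, ?_, ?_⟩
      · intro w hconst h1 h0
        rw [← hFF]
        exact aeval_nonneg hconst (fun j => h1 (Sum.inr j)) F'
      · intro τ hτ
        choose χ hχ using fun j => hdiag τ hτ j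
        obtain ⟨c, hc⟩ := hFG τ (hle hτ)
        rw [← hFF] at hc ⊢
        exact quot_inv hind hu0 hχ hc hμ
      · intro w hw h1 h0 hwE j
        have hz0 : 0 ≤ ov w (Abs.lin z (v j)) := (nonneg_iff w (hu0 j)).1 (h1 (Sum.inr j))
        exact mul_le_mul_of_nonneg_right (hμle j) (by exact_mod_cast hz0)
      · intro w m hw h1 h0 hwE hm
        rw [← hFF]
        exact key_ineq hd' hnT hF'0 (P := fall μ) (α := μ)
          (fun ν _ h => eval_fall_eq_zero μ ν h) hw hwE hm (totalDegree_fall μ)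
    refine hcore ε hε N' Q₀ hQ₀ hN K L x z g b G A H G0 v hle hidx hv hvb hdiag0 hdiag μ.degree
      (fun j => μ j) (aeval z F) E hFG hEmem hE0 hFD D hD B hB hcr hlc _ ?_
    intro p hp
    exact zero_pts H v _ hR p hp

end Vale.Agent.P283.H646
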