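import Vale.Agent.P283.H646.Fam

/-!
P283: neighbourhoods of points of `X = Y / G`.
-/

set_option linter.style.haveILetI false

namespace Vale.Agent.P283.H646

open scoped KaehlerDifferential
open MvPolynomial Finset Vale.Agent.P283 Vale.Agent.P283.Q.H646

section Near

variable {q k : ℕ} {K L : Type} [Field K] [Field L] [Algebra ℂ K] [Algebra ℂ L] [Algebra K L]
  {x : Fin (q + 1) → L} {z : Fin k → L} {g : MvPolynomial (Fin k) ℂ} {b : Fin k → ℚ}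
  {G : Subgroup (L ≃ₐ[ℂ] L)} {A : Subalgebra ℂ K}

theorem aeval_mem {u : Fin k → L} (hu : ∀ j, u j ∈ Abs.rY x z) (p : MvPolynomial (Fin k) ℂ) :
    aeval u p ∈ Abs.rY x z := by
  have h1 : aeval u p ∈ Algebra.adjoin ℂ (Set.range u) := by
    rw [Algebra.adjoin_range_eq_range_aeval]; exact ⟨p, rfl⟩
  have h2 : Algebra.adjoin ℂ (Set.range u) ≤ Abs.rY x z := by
    rw [Algebra.adjoin_le_iff]
    rintro _ ⟨j, rfl⟩
    exact hu j
  exact h2 h1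

/-- The points of `X` below the `G`-orbits contained in `{E ≠ 0}`. -/
def goodPts (x : Fin (q + 1) → L) (z : Fin k → L) (G : Subgroup (L ≃ₐ[ℂ] L))
    (A : Subalgebra ℂ K) (E : L) : Set (Ideal A) :=
  {p | ∃ χ : Q.H646.OY x z →ₐ[ℂ] ℂ, Q.H646.IsImage x z A χ p ∧
    ∀ τ ∈ G, ∀ y : Q.H646.OY x z, (y : L) = τ E → χ y ≠ 0}

/-- The norm of a function on `Y`. -/
theorem exists_s (H : Q.IsQuotient x z g b G A) {E : L} (hEmem : E ∈ Abs.rY x z) (hE0 : E ≠ 0) :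
    ∃ σ : A, (∀ p ∈ goodPts x z G A E, σ ∉ p) ∧ (σ : K) ≠ 0 ∧
      ∀ (v' : AddValuation K (WithTop ℤ)) (w : AddValuation L (WithTop ℤ)) (e : ℕ),
        IsOver A v' → v' σ = 0 → (∀ f : K, w (algebraMap K L f) = e • v' f) → w E = 0 := by
  classical
  have hfin : Finite G := H.finite
  have : Fintype G := Fintype.ofFinite G
  let N : L := ∏ τ : G, (τ : L ≃ₐ[ℂ] L) E
  have hN0 : N ≠ 0 := Finset.prod_ne_zero_iff.mpr fun τ _ => (map_ne_zero _).mpr hE0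
  have hNfix : N ∈ Set.range (algebraMap K L) := by
    rw [H.field]
    intro σ hσ
    simp only [N, map_prod]
    exact Fintype.prod_equiv (Equiv.mulLeft (⟨σ, hσ⟩ : G)) _ _ fun τ => rfl
  have hNmem : N ∈ Abs.rY x z :=
    Subalgebra.prod_mem _ fun τ _ => Abs.rY_stable H τ.1 τ.2 hEmem
  obtain ⟨y, hy⟩ := hNfix
  have hy0 : y ≠ 0 := fun h => hN0 (by rw [← hy, h, map_zero])
  have hyA : y ∈ A := by
    rw [H.ring, hy]
    exact hNmem
  refine ⟨⟨y, hyA⟩, ?_, hy0, ?_⟩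
  · intro p hp hmem
    obtain ⟨χ, hχ, hχE⟩ : ∃ χ : Abs.rY x z →ₐ[ℂ] ℂ,
      (∀ (a : A) (y : Abs.rY x z), (y : L) = algebraMap K L a → (a ∈ p ↔ χ y = 0)) ∧
      ∀ τ ∈ G, ∀ y : Abs.rY x z, (y : L) = τ E → χ y ≠ 0 := hp
    have h1 : χ ⟨N, hNmem⟩ = 0 := (hχ ⟨y, hyA⟩ ⟨N, hNmem⟩ hy.symm).1 hmem
    have h2 : (⟨N, hNmem⟩ : Abs.rY x z)
        = ∏ τ : G, (⟨(τ : L ≃ₐ[ℂ] L) E, Abs.rY_stable H τ.1 τ.2 hEmem⟩ : Abs.rY x z) := by
      apply Subtype.ext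
      rw [SubmonoidClass.coe_finsetProd]
    rw [h2, map_prod, Finset.prod_eq_zero_iff] at h1
    obtain ⟨τ, -, h3⟩ := h1
    exact hχE τ.1 τ.2 _ rfl h3
  · intro v' w e hover hv0 hvw
    have hnn : ∀ a ∈ A, 0 ≤ w (algebraMap K L a) := by
      intro a ha
      rw [hvw]
      exact nsmul_nonneg (hover ⟨a, ha⟩) e
    have h1 : ∀ τ : G, 0 ≤ w ((τ : L ≃ₐ[ℂ] L) E) := fun τ =>
      nonneg_of_integral hnn (Abs.rY_integral H (Abs.rY_stable H τ.1 τ.2 hEmem))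
    have h2 : w N = 0 := by
      rw [← hy, hvw]
      have : v' y = 0 := hv0
      rw [this, nsmul_zero]
    have h0 : ∀ τ : G, (τ : L ≃ₐ[ℂ] L) E ≠ 0 := fun τ => (map_ne_zero _).mpr hE0
    have h3 : ov w N = 0 := ov_eq_of w h2
    have h4 : ov w N = ∑ τ : G, ov w ((τ : L ≃ₐ[ℂ] L) E) := ov_prod _ _ fun τ _ => h0 τ
    rw [h4] at h3
    have h5 := (Finset.sum_eq_zero_iff_of_nonneg fun τ _ => (nonneg_iff w (h0 τ)).1 (h1 τ)).1 h3
      (1 : G) (Finset.mem_univ _)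
    have h6 : ((1 : G) : L ≃ₐ[ℂ] L) E = E := rfl
    rw [h6] at h5
    rw [← coe_ov w hE0, h5]
    rfl

/-- Evaluation of a polynomial. -/
theorem eval_point (χ : Abs.rY x z →ₐ[ℂ] ℂ) (u : Fin k → L) (hu : ∀ j, u j ∈ Abs.rY x z)
    (R : MvPolynomial (Fin k) ℂ) (y : Abs.rY x z) (hy : (y : L) = aeval u R) :
    χ y = aeval (fun j => χ ⟨u j, hu j⟩) R := by
  have h4 : y = aeval (fun j => (⟨u j, hu j⟩ : Abs.rY x z)) R := by
    apply Subtype.ext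
    rw [hy]
    exact aeval_algebraMap_apply L (fun j => (⟨u j, hu j⟩ : Abs.rY x z)) R
  rw [h4]
  exact comp_aeval_apply _ χ R

/-- The points over `z = 0`. -/
theorem zero_pts (H : Q.IsQuotient x z g b G A) (v : Fin k → (Fin k → ℂ))
    (R : MvPolynomial (Fin k) ℂ) (hR : constantCoeff R ≠ 0) (p : Ideal A)
    (hp : ∃ χ : Q.H646.OY x z →ₐ[ℂ] ℂ, Q.H646.IsImage x z A χ p ∧
      ∀ (y : Q.H646.OY x z) (j : Fin k), (y : L) = z j → χ y = 0) :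
    p ∈ goodPts x z G A (aeval (fun j => Abs.lin z (v j)) R) := by
  obtain ⟨χ, hχ, hχ0⟩ := hp
  refine ⟨χ, hχ, ?_⟩
  revert hχ0
  clear hχ
  change Abs.rY x z →ₐ[ℂ] ℂ at χ
  intro hχ0 τ hτ y hy
  change Abs.rY x z at y
  have hχ0' : ∀ (y : Abs.rY x z) (j : Fin k), (y : L) = z j → χ y = 0 := hχ0
  set u : Fin k → L := fun j => Abs.lin z (v j) with hu
  have hlin : ∀ a : Fin k → ℂ, ∀ hm : Abs.lin z a ∈ Abs.rY x z, χ ⟨Abs.lin z a, hm⟩ = 0 := by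
    intro a hm
    have h2 : (⟨Abs.lin z a, hm⟩ : Abs.rY x z)
        = ∑ j, a j • (⟨z j, Abs.z_mem_rY x z j⟩ : Abs.rY x z) := by
      apply Subtype.ext
      rw [AddSubmonoidClass.coe_finsetSum]
      simp only [Abs.lin_apply]
      rfl
    rw [h2, map_sum]
    refine Finset.sum_eq_zero fun j _ => ?_
    rw [map_smul, hχ0' ⟨z j, Abs.z_mem_rY x z j⟩ j rfl, smul_zero]
  have hmem' : ∀ j, τ (u j) ∈ Abs.rY x z := fun j =>
    Abs.rY_stable H τ hτ (Abs.lin_mem x z (v j))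
  have h0 : ∀ j, χ ⟨τ (u j), hmem' j⟩ = 0 := by
    intro j
    obtain ⟨a', ha'⟩ := Abs.mem_range_lin H τ hτ (v j)
    have h3 : (⟨τ (u j), hmem' j⟩ : Abs.rY x z)
        = ⟨Abs.lin z a', Abs.lin_mem x z a'⟩ := Subtype.ext ha'.symm
    rw [h3]
    exact hlin a' _
  have h7 : τ (aeval u R) = aeval (fun j => τ (u j)) R :=
    comp_aeval_apply _ ((τ : L ≃ₐ[ℂ] L) : L →ₐ[ℂ] L) R
  rw [h7] at hy
  have h8 := eval_point χ (fun j => τ (u j)) hmem' R y hy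
  simp only [h0] at h8
  rw [aeval_zero', Algebra.algebraMap_self_apply] at h8
  intro h
  exact hR (h8.symm.trans h)

end Near

end Vale.Agent.P283.H646
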