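import Vale.Agent.P283.H329.LinMain

/-!
P283: polynomials in the logarithmic derivations `z_j ∂/∂z_j` lower a divisorial valuation by at
most their degree times the log discrepancy with respect to the coordinate hyperplanes.
-/

namespace Vale.Agent.P283.H646

open scoped KaehlerDifferential
open MvPolynomial Finset Vale.Agent.P283

/-- The operator `P(z_1 ∂/∂z_1, …, z_k ∂/∂z_k)` applied to the polynomial `F`. -/
noncomputable def opP {σ : Type} (P F : MvPolynomial σ ℂ) : MvPolynomial σ ℂ :=
  ∑ n ∈ F.support, monomial n (F.coeff n * eval (fun i => (n i : ℂ)) P)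

section Op

variable {σ : Type}

theorem coeff_opP (P F : MvPolynomial σ ℂ) (n : σ →₀ ℕ) :
    (opP P F).coeff n = F.coeff n * eval (fun i => (n i : ℂ)) P := by
  classical
  unfold opP
  simp only [coeff_sum, coeff_monomial, Finset.sum_ite_eq']
  split_ifs with h
  · rfl
  · rw [notMem_support_iff.1 h]; simp

theorem opP_add (P P' F : MvPolynomial σ ℂ) : opP (P + P') F = opP P F + opP P' F := by
  ext n
  rw [coeff_add, coeff_opP, coeff_opP, coeff_opP, map_add, mul_add]

theorem opP_zero (F : MvPolynomial σ ℂ) : opP 0 F = 0 := by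
  ext n
  rw [coeff_opP, map_zero, mul_zero, coeff_zero]

theorem opP_one (F : MvPolynomial σ ℂ) : opP 1 F = F := by
  ext n
  rw [coeff_opP, map_one, mul_one]

theorem opP_sum {ι : Type} (s : Finset ι) (P : ι → MvPolynomial σ ℂ) (F : MvPolynomial σ ℂ) :
    opP (∑ i ∈ s, P i) F = ∑ i ∈ s, opP (P i) F := by
  classical
  induction s using Finset.induction_on with
  | empty => simp [opP_zero]
  | insert a s ha ih => rw [Finset.sum_insert ha, Finset.sum_insert ha, opP_add, ih]

theorem opP_C_mul (c : ℂ) (P F : MvPolynomial σ ℂ) : opP (C c * P) F = C c * opP P F := by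
  ext n
  rw [coeff_opP, coeff_C_mul, coeff_opP, map_mul, eval_C]
  ring

/-- The polynomial `E` with `P(θ) F = z^μ E`. -/
noncomputable def quo (P F : MvPolynomial σ ℂ) (μ : σ →₀ ℕ) : MvPolynomial σ ℂ :=
  (opP P F).divMonomial μ

theorem opP_eq_mul (P F : MvPolynomial σ ℂ) (μ : σ →₀ ℕ)
    (h : ∀ ν ∈ F.support, ¬ μ ≤ ν → eval (fun i => (ν i : ℂ)) P = 0) :
    opP P F = monomial μ 1 * quo P F μ := by
  classical
  ext n
  rw [coeff_monomial_mul']
  split_ifs with hn
  · rw [one_mul]
    unfold quo
    rw [coeff_divMonomial, add_tsub_cancel_of_le hn]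
  · rw [coeff_opP]
    by_cases hs : n ∈ F.support
    · rw [h n hs hn, mul_zero]
    · rw [notMem_support_iff.1 hs, zero_mul]

theorem constantCoeff_quo (P F : MvPolynomial σ ℂ) (μ : σ →₀ ℕ) :
    constantCoeff (quo P F μ) = F.coeff μ * eval (fun i => (μ i : ℂ)) P := by
  unfold quo
  rw [constantCoeff_eq, coeff_divMonomial, add_zero, coeff_opP]

end Op

section Val

variable {L : Type} [Field L] [Algebra ℂ L] {k : ℕ} {u : Fin k → L}
  {D : Fin k → Derivation ℂ L L} {w : AddValuation L (WithTop ℤ)} {c : ℤ}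

theorem theta_gen (hD : ∀ j i, u j * D j (u i) = if i = j then u i else 0) (j : Fin k)
    (p : MvPolynomial (Fin k) ℂ) :
    u j * D j (aeval u p)
      = ∑ n ∈ p.support, ((n j : ℕ) : L) * (aeval u (monomial n (p.coeff n))) := by
  classical
  conv_lhs => rw [p.as_sum]
  rw [map_sum, map_sum, Finset.mul_sum]
  apply Finset.sum_congr rfl
  intro n _
  rw [aeval_monomial, Finsupp.prod_fintype _ _ (by simp)]
  have h := Eig.prod (D j) (u j) Finset.univ (fun i => n i * (if i = j then 1 else 0))
    (fun i => u i ^ n i) (fun i _ => by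
      have h1 : Eig (D j) (u j) (if i = j then 1 else 0) (u i) := by
        unfold Eig
        rw [hD j i]
        split_ifs <;> simp
      exact h1.pow _ _ (n i))
  have h2 : (∑ i, ((n i : ℕ) : ℤ) * (if i = j then 1 else 0)) = n j := by
    simp only [mul_ite, mul_one, mul_zero, sum_ite_eq', mem_univ, ↓reduceIte]
  rw [h2] at h
  unfold Eig at h
  rw [Derivation.leibniz, Derivation.map_algebraMap, smul_zero, add_zero, smul_eq_mul]
  push_cast at h ⊢
  linear_combination (algebraMap ℂ L (p.coeff n)) * h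

/-- `θ_j (P(θ) F) = (X_j P)(θ) F`. -/
theorem theta_opP (hD : ∀ j i, u j * D j (u i) = if i = j then u i else 0) (j : Fin k)
    (P F : MvPolynomial (Fin k) ℂ) :
    u j * D j (aeval u (opP P F)) = aeval u (opP (X j * P) F) := by
  classical
  rw [theta_gen hD]
  have h1 : ∀ p : MvPolynomial (Fin k) ℂ,
      ∑ n ∈ p.support, ((n j : ℕ) : L) * (aeval u (monomial n (p.coeff n)))
        = aeval u (∑ n ∈ p.support, monomial n ((n j : ℂ) * p.coeff n)) := by
    intro p
    rw [map_sum]
    refine Finset.sum_congr rfl fun n _ => ?_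
    rw [aeval_monomial, aeval_monomial, map_mul, map_natCast]
    ring
  rw [h1]
  congr 1
  ext n
  simp only [coeff_sum, coeff_monomial, Finset.sum_ite_eq']
  rw [coeff_opP (X j * P), map_mul, eval_X]
  split_ifs with h
  · rw [coeff_opP]; ring
  · rw [notMem_support_iff, coeff_opP] at h
    linear_combination -(n j : ℂ) * h

theorem add_const_mono {a b : WithTop ℤ} (h : a ≤ b) (c : WithTop ℤ) : a + c ≤ b + c := by
  gcongr

omit [Algebra ℂ L] in
/-- Sums. -/
theorem le_sum_add {ι : Type} (s : Finset ι) (f : ι → L) (a e : WithTop ℤ)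
    (h : ∀ i ∈ s, a ≤ w (f i) + e) (he : s = ∅ → a ≤ ⊤ + e) : a ≤ w (∑ i ∈ s, f i) + e := by
  classical
  induction s using Finset.induction_on with
  | empty =>
    rw [Finset.sum_empty, AddValuation.map_zero]
    exact he rfl
  | insert i s hi ih =>
    rw [Finset.sum_insert hi]
    by_cases hs : s = ∅
    · rw [hs, Finset.sum_empty, add_zero]
      exact h i (Finset.mem_insert_self _ _)
    · have h1 := ih (fun j hj => h j (Finset.mem_insert_of_mem hj)) fun h => absurd h hs
      have h2 := h i (Finset.mem_insert_self _ _)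
      have h3 := AddValuation.map_add w (f i) (∑ j ∈ s, f j)
      rcases min_le_iff.1 h3 with h4 | h4
      · exact h2.trans (add_const_mono h4 e)
      · exact h1.trans (add_const_mono h4 e)

/-- The basic inequality. -/
theorem val_le_opP (hconst : ∀ c : ℂ, c ≠ 0 → w (algebraMap ℂ L c) = 0)
    (hD : ∀ j i, u j * D j (u i) = if i = j then u i else 0) (hc : 0 ≤ c)
    (hθ : ∀ j f, w f ≤ w (u j * D j f) + (c : WithTop ℤ)) (F P : MvPolynomial (Fin k) ℂ) (N : ℕ)
    (hP : P.totalDegree ≤ N) :
    w (aeval u F) ≤ w (aeval u (opP P F)) + ((N * c : ℤ) : WithTop ℤ) := by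
  classical
  have hmono : ∀ (M : ℕ) (n : Fin k →₀ ℕ), n.degree = M →
      w (aeval u F) ≤ w (aeval u (opP (monomial n 1) F)) + ((M * c : ℤ) : WithTop ℤ) := by
    intro M
    induction M with
    | zero =>
      intro n hn
      rw [Finsupp.degree_eq_zero_iff] at hn
      subst hn
      have h1 : (monomial (0 : Fin k →₀ ℕ) (1 : ℂ)) = 1 := rfl
      rw [h1, opP_one]
      simp
    | succ M ih =>
      intro n hn
      obtain ⟨j, hj⟩ : ∃ j, n j ≠ 0 := by
        by_contra hcon
        push Not at hcon
        have : n = 0 := Finsupp.ext hcon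
        rw [this] at hn
        simp at hn
      have h1 : n = Finsupp.single j 1 + (n - Finsupp.single j 1) := by
        rw [add_tsub_cancel_of_le]
        rw [Finsupp.single_le_iff]
        omega
      have h2 : (n - Finsupp.single j 1).degree = M := by
        have h3 := congrArg Finsupp.degree h1
        rw [map_add, Finsupp.degree_single, hn] at h3
        omega
      have h3 := ih _ h2
      have h4 : (monomial n (1 : ℂ)) = X j * monomial (n - Finsupp.single j 1) 1 := by
        conv_lhs => rw [h1]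
        rw [X, monomial_mul, one_mul]
      rw [h4, ← theta_opP hD]
      have h5 := hθ j (aeval u (opP (monomial (n - Finsupp.single j 1) 1) F))
      refine h3.trans ((add_const_mono h5 _).trans (le_of_eq ?_))
      rw [add_assoc, ← WithTop.coe_add]
      congr 2
      push_cast
      ring
  by_cases hP0 : P = 0
  · rw [hP0, opP_zero, map_zero, AddValuation.map_zero]
    simp
  have h1 : aeval u (opP P F)
      = ∑ n ∈ P.support, aeval u (opP (C (P.coeff n) * monomial n 1) F) := by
    rw [← map_sum, ← opP_sum]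
    congr 2
    conv_lhs => rw [P.as_sum]
    refine Finset.sum_congr rfl fun n _ => ?_
    rw [C_mul_monomial, mul_one]
  rw [h1]
  refine le_sum_add _ _ _ _ ?_ ?_
  · intro n hn
    have h2 := hmono n.degree n rfl
    rw [opP_C_mul, map_mul, AddValuation.map_mul, algHom_C, hconst _ (mem_support_iff.1 hn),
      zero_add]
    refine h2.trans ?_
    have h3 : n.degree ≤ N := (le_totalDegree hn).trans hP
    have h4 : ((n.degree : ℤ) * c) ≤ N * c :=
      mul_le_mul_of_nonneg_right (by exact_mod_cast h3) hc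
    have h5 : (((n.degree : ℤ) * c : ℤ) : WithTop ℤ) ≤ (((N : ℤ) * c : ℤ) : WithTop ℤ) :=
      WithTop.coe_le_coe.2 h4
    gcongr
  · intro h
    exact absurd h (by simpa using hP0)

/-- **Order of a polynomial along a divisorial valuation.** -/
theorem ov_le (hconst : ∀ c : ℂ, c ≠ 0 → w (algebraMap ℂ L c) = 0)
    (hD : ∀ j i, u j * D j (u i) = if i = j then u i else 0) (hc : 0 ≤ c)
    (hθ : ∀ j f, w f ≤ w (u j * D j f) + (c : WithTop ℤ)) (hu : ∀ j, u j ≠ 0)
    (F P : MvPolynomial (Fin k) ℂ) (N : ℕ) (hP : P.totalDegree ≤ N) (μ : Fin k →₀ ℕ)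
    (h : ∀ ν ∈ F.support, ¬ μ ≤ ν → eval (fun i => (ν i : ℂ)) P = 0)
    (hF : aeval u F ≠ 0) (hE : w (aeval u (quo P F μ)) = 0) :
    ov w (aeval u F) ≤ ∑ j, (μ j : ℤ) * ov w (u j) + N * c := by
  have h1 := val_le_opP hconst hD hc hθ F P N hP
  rw [opP_eq_mul P F μ h, map_mul, AddValuation.map_mul, hE, add_zero, aeval_monomial,
    map_one, one_mul, Finsupp.prod_fintype _ _ (by simp)] at h1
  have h2 : ∏ j, u j ^ μ j ≠ 0 := Finset.prod_ne_zero_iff.2 fun j _ => pow_ne_zero _ (hu j)
  rw [← coe_ov w hF, ← coe_ov w h2, ← WithTop.coe_add, WithTop.coe_le_coe,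
    ov_prod _ _ fun j _ => pow_ne_zero _ (hu j)] at h1
  refine h1.trans (le_of_eq ?_)
  congr 1
  exact Finset.sum_congr rfl fun j _ => ov_pow w (hu j) _

end Val

end Vale.Agent.P283.H646
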