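import Vale.Agent.P283.H646.Main

/-!
P283: all points of `X = Y / G` for a diagonal group `G`.
-/

set_option linter.style.haveILetI false

namespace Vale.Agent.P283.H646

open scoped KaehlerDifferential
open MvPolynomial Finset Vale.Agent.P283 Vale.Agent.P283.Q.H646

theorem mem_support_pderivs {k : ℕ} {α : Fin k →₀ ℕ} {F : MvPolynomial (Fin k) ℂ}
    {n : Fin k →₀ ℕ} (hn : n ∈ (pderivs α F).support) : α + n ∈ F.support := by
  rw [← quo_fall, mem_support_iff] at hn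
  unfold quo at hn
  rw [coeff_divMonomial, coeff_opP] at hn
  rw [mem_support_iff]
  exact fun h => hn (by rw [h, zero_mul])

/-- A partial derivative of a semi-invariant polynomial. -/
theorem semi_pderivs {k : ℕ} {L : Type} [Field L] [Algebra ℂ L] {u : Fin k → L}
    (hu : AlgebraicIndependent ℂ u) {τ : L ≃ₐ[ℂ] L} {χ : Fin k → ℂ}
    (hχ : ∀ i, τ (u i) = χ i • u i) (hχ0 : ∀ i, χ i ≠ 0) {F : MvPolynomial (Fin k) ℂ} {c : ℂ}
    (hc : c ≠ 0) (h : τ (aeval u F) = c • aeval u F) (α : Fin k →₀ ℕ) :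
    ∃ c' : ℂ, c' ≠ 0 ∧ τ (aeval u (pderivs α F)) = c' • aeval u (pderivs α F) := by
  classical
  have hprod : ∏ i, χ i ^ (α i) ≠ 0 := Finset.prod_ne_zero_iff.2 fun i _ => pow_ne_zero _ (hχ0 i)
  refine ⟨c * (∏ i, χ i ^ (α i))⁻¹, mul_ne_zero hc (inv_ne_zero hprod), ?_⟩
  rw [twist_aeval hχ, Algebra.smul_def, ← algHom_C (aeval u), ← map_mul]
  congr 1
  conv_rhs => rw [(pderivs α F).as_sum, Finset.mul_sum]
  refine Finset.sum_congr rfl fun n hn => ?_
  rw [C_mul_monomial]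
  congr 2
  have h1 := char_eq hu hχ h (mem_support_pderivs hn)
  have h2 : ∏ i, χ i ^ ((α + n) i) = (∏ i, χ i ^ (α i)) * ∏ i, χ i ^ (n i) := by
    rw [← Finset.prod_mul_distrib]
    exact Finset.prod_congr rfl fun i _ => by rw [Finsupp.add_apply, pow_add]
  rw [h2] at h1
  rw [← h1]
  field_simp

theorem exists_exponent {k : ℕ} {α : Fin k →₀ ℕ} {F : MvPolynomial (Fin k) ℂ} {c : Fin k → ℂ}
    (h : eval c (pderivs α F) ≠ 0) :
    ∃ ν ∈ F.support, α ≤ ν ∧ ∀ j, c j = 0 → ν j = α j := by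
  classical
  rw [eval_eq'] at h
  obtain ⟨n, hn, h1⟩ := Finset.exists_ne_zero_of_sum_ne_zero h
  refine ⟨α + n, mem_support_pderivs hn, le_self_add, ?_⟩
  intro j hj
  have h2 : c j ^ n j ≠ 0 := (Finset.prod_ne_zero_iff.1 (right_ne_zero_of_mul h1)) j
    (Finset.mem_univ j)
  rw [hj] at h2
  have h3 : n j = 0 := by
    by_contra h4
    exact h2 (zero_pow h4)
  rw [Finsupp.add_apply, h3, add_zero]

theorem eval_ne {q k : ℕ} {L : Type} [Field L] [Algebra ℂ L] {x : Fin (q + 1) → L}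
    {z : Fin k → L} (χ : Abs.rY x z →ₐ[ℂ] ℂ) (c : Fin k → ℂ)
    (hχ : ∀ (y : Abs.rY x z) (j : Fin k), (y : L) = z j → χ y = c j)
    {R : MvPolynomial (Fin k) ℂ} (hR : eval c R ≠ 0) {a : ℂ} (ha : a ≠ 0)
    (y : Abs.rY x z) (hy : (y : L) = a • aeval z R) : χ y ≠ 0 := by
  have hzm : ∀ j, z j ∈ Abs.rY x z := fun j => Abs.z_mem_rY x z j
  have hm : aeval z R ∈ Abs.rY x z := aeval_mem hzm R
  have h2 : y = a • (⟨aeval z R, hm⟩ : Abs.rY x z) := by
    apply Subtype.ext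
    rw [hy]
    rfl
  have h3 : χ ⟨aeval z R, hm⟩ = eval c R := by
    have h4 := eval_point χ z hzm R ⟨aeval z R, hm⟩ rfl
    rw [h4]
    have h5 : (fun j => χ ⟨z j, hzm j⟩) = c := by
      funext j
      exact hχ ⟨z j, hzm j⟩ j rfl
    rw [h5]
    rfl
  rw [h2, map_smul, h3, smul_eq_mul]
  exact mul_ne_zero ha hR

/-- **Part (3).** -/
theorem main_pts (d : ℕ) (hd : 0 < d) : ∃ c : ℕ, 0 < c ∧
    ∀ ε : ℝ, 0 < ε → ∀ Q₀ n : ℕ, 0 < Q₀ → c * Q₀ ∣ n → (c : ℝ) * Q₀ * (1 + 1 / ε) ≤ n →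
    ∀ q k : ℕ, q + k = d → ∀ (K L : Type) [Field K] [Field L] [Algebra ℂ K] [Algebra ℂ L]
      [Algebra K L] [IsScalarTower ℂ K L] (x : Fin (q + 1) → L) (z : Fin k → L)
      (g : MvPolynomial (Fin k) ℂ) (b : Fin k → ℚ) (G : Subgroup (L ≃ₐ[ℂ] L))
      (A : Subalgebra ℂ K), Q.IsQuotient x z g b G A →
      (∀ τ ∈ G, ∀ i, ∃ c : ℂ, τ (x i) = c • x i) →
      (∀ τ ∈ G, ∀ j, ∃ c : ℂ, τ (z j) = c • z j) →
    ∀ F : MvPolynomial (Fin k) ℂ, (∀ τ ∈ G, ∃ c : ℂ, τ (aeval z F) = c • aeval z F) →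
    ∀ D : Fin (q + k) → Derivation ℂ K K, (∃ f, Q.jac D f ≠ 0) →
    ∀ B : Q.QDivisor A, (∀ p, 0 ≤ B.coeff p) →
      Q.H646.IsCrepantF x z b (aeval z F) Q₀ A D B → Q.IsEpsLC D B ε →
    ∀ c : Fin k → ℂ, (∃ α : Fin k →₀ ℕ, α.degree < Q₀ ∧ eval c (pderivs α F) ≠ 0 ∧
        ∀ j, c j = 0 → (α j : ℚ) ≤ (Q₀ - 1) * (1 - b j)) →
      Q.H646.HasKltComplementOver D B n (pointsOver x z A c) := by
  classical
  have hm := merge_qk d (fun q k ε Q₀ n =>
    ∀ (K L : Type) [Field K] [Field L] [Algebra ℂ K] [Algebra ℂ L]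
      [Algebra K L] [IsScalarTower ℂ K L] (x : Fin (q + 1) → L) (z : Fin k → L)
      (g : MvPolynomial (Fin k) ℂ) (b : Fin k → ℚ) (G : Subgroup (L ≃ₐ[ℂ] L))
      (A : Subalgebra ℂ K), Q.IsQuotient x z g b G A →
      (∀ τ ∈ G, ∀ i, ∃ c : ℂ, τ (x i) = c • x i) →
      (∀ τ ∈ G, ∀ j, ∃ c : ℂ, τ (z j) = c • z j) →
    ∀ F : MvPolynomial (Fin k) ℂ, (∀ τ ∈ G, ∃ c : ℂ, τ (aeval z F) = c • aeval z F) →
    ∀ D : Fin (q + k) → Derivation ℂ K K, (∃ f, Q.jac D f ≠ 0) →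
    ∀ B : Q.QDivisor A, (∀ p, 0 ≤ B.coeff p) →
      Q.H646.IsCrepantF x z b (aeval z F) Q₀ A D B → Q.IsEpsLC D B ε →
    ∀ c : Fin k → ℂ, (∃ α : Fin k →₀ ℕ, α.degree < Q₀ ∧ eval c (pderivs α F) ≠ 0 ∧
        ∀ j, c j = 0 → (α j : ℚ) ≤ (Q₀ - 1) * (1 - b j)) →
      Q.H646.HasKltComplementOver D B n (pointsOver x z A c)) ?_
  · obtain ⟨c, hc, h⟩ := hm
    exact ⟨c, hc, fun ε hε Q₀ n hQ₀ hdvd hn q k hqk => h ε hε Q₀ n hQ₀ hdvd hn q k hqk⟩
  · intro q k hqk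
    have hd' : 0 < q + k := by omega
    obtain ⟨c₀, hc₀, hcore⟩ := core_qk q k hd' 1
    refine ⟨c₀, Nat.factorial 1, hc₀, Nat.factorial_pos 1, ?_⟩
    intro ε hε N' Q₀ hQ₀ hN K L _ _ _ _ _ _ x z g b G A H hdx hdz F hFG D hD B hB hcr hlc c
      ⟨α, hdeg, hα, hαb⟩
    obtain ⟨ν, hν, hαν, hνj⟩ := exists_exponent hα
    have hlin : ∀ j, Abs.lin z (Pi.single j 1 : Fin k → ℂ) = z j := fun j => Abs.lin_single z j
    have hnT : Abs.nT x z (fun j => Pi.single j 1) = Abs.cT x z := by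
      funext i
      rcases i with l | j
      · rfl
      · exact hlin j
    have hcoords : IsCoords (Abs.cT x z) := Abs.coords H
    have hz0 : ∀ j, z j ≠ 0 := fun j => hcoords.ne_zero (Sum.inr j)
    have hind : AlgebraicIndependent ℂ z := by
      have h1 : AlgebraicIndependent ℂ fun j => Abs.cT x z (Sum.inr j) := indep_inr hcoords
      have h2 : (fun j => Abs.cT x z (Sum.inr j)) = z := rfl
      rw [h2] at h1
      exact h1
    have hF0 : F ≠ 0 := by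
      rintro rfl
      simp at hν
    have hf0 : aeval z F ≠ 0 := fun h => hF0 (hind (by rw [map_zero]; exact h))
    have hR0 : pderivs α F ≠ 0 := by
      intro h
      rw [h, map_zero] at hα
      exact hα rfl
    -- the open subset
    let S : Finset (Fin k) := Finset.univ.filter fun j => c j ≠ 0
    let R : MvPolynomial (Fin k) ℂ := pderivs α F * ∏ j ∈ S, X j
    have hRc : eval c R ≠ 0 := by
      simp only [R, map_mul, map_prod, eval_X]
      refine mul_ne_zero hα (Finset.prod_ne_zero_iff.2 fun j hj => ?_)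
      exact (Finset.mem_filter.1 hj).2
    have hRz : aeval z R = aeval z (pderivs α F) * ∏ j ∈ S, z j := by
      simp only [R, map_mul, map_prod, aeval_X]
    have hd0 : aeval z (pderivs α F) ≠ 0 := fun h => hR0 (hind (by rw [map_zero]; exact h))
    have hS0 : ∏ j ∈ S, z j ≠ 0 := Finset.prod_ne_zero_iff.2 fun j _ => hz0 j
    set E : L := aeval z R with hE
    have hE0 : E ≠ 0 := by rw [hRz]; exact mul_ne_zero hd0 hS0
    have hzm : ∀ j, z j ∈ Abs.rY x z := fun j => Abs.z_mem_rY x z j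
    have hEmem : E ∈ Abs.rY x z := aeval_mem hzm _
    -- where `E` is invertible
    have hsplit : ∀ w : AddValuation L (WithTop ℤ), (∀ c : ℂ, c ≠ 0 → w (algebraMap ℂ L c) = 0) →
        (∀ j, 0 ≤ w (z j)) → w E = 0 →
        w (aeval z (pderivs α F)) = 0 ∧ ∀ j, c j ≠ 0 → ov w (z j) = 0 := by
      intro w hconst hzn hwE
      have h1 : 0 ≤ ov w (aeval z (pderivs α F)) :=
        (nonneg_iff w hd0).1 (aeval_nonneg hconst hzn _)
      have h2 : ∀ j, 0 ≤ ov w (z j) := fun j => (nonneg_iff w (hz0 j)).1 (hzn j)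
      have h3 : ov w E = 0 := ov_eq_of w hwE
      rw [hRz, ov_mul w hd0 hS0, ov_prod _ _ fun j _ => hz0 j] at h3
      have h4 : 0 ≤ ∑ j ∈ S, ov w (z j) := Finset.sum_nonneg fun j _ => h2 j
      have h5 : ov w (aeval z (pderivs α F)) = 0 := by linarith
      have h6 : ∑ j ∈ S, ov w (z j) = 0 := by linarith
      refine ⟨?_, ?_⟩
      · rw [← coe_ov w hd0, h5]
        rfl
      · intro j hj
        exact (Finset.sum_eq_zero_iff_of_nonneg fun j _ => h2 j).1 h6 j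
          (Finset.mem_filter.2 ⟨Finset.mem_univ j, hj⟩)
    have hFD : FData q k (Abs.nT x z fun j => Pi.single j 1) (x 0) G (fun j => 1 - b j) Q₀
        α.degree (fun j => ν j) (aeval z F) E := by
      rw [hnT]
      refine ⟨hf0, ?_, ?_, hdeg, ?_, ?_⟩
      · intro w hconst h1 h0
        exact aeval_nonneg hconst (fun j => h1 (Sum.inr j)) F
      · intro τ hτ
        choose ζ hζ using fun j => hdz τ hτ j
        obtain ⟨c', hc'⟩ := hFG τ hτ
        exact quot_inv hind hz0 hζ hc' hν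
      · intro w hw h1 h0 hwE j
        have hzj0 : 0 ≤ ov w (z j) := (nonneg_iff w (hz0 j)).1 (h1 (Sum.inr j))
        show (ν j : ℚ) * ov w (z j) ≤ (Q₀ - 1) * (1 - b j) * ov w (z j)
        by_cases hj : c j = 0
        · rw [hνj j hj]
          exact mul_le_mul_of_nonneg_right (hαb j hj) (by exact_mod_cast hzj0)
        · rw [(hsplit w hw.const (fun j => h1 (Sum.inr j)) hwE).2 j hj]
          simp
      · intro w m hw h1 h0 hwE hm
        obtain ⟨h2, h3⟩ := hsplit w hw.const (fun j => h1 (Sum.inr j)) hwE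
        have h4 := key_ineq hd' hcoords hF0 (P := fall α) (α := α)
          (fun ν _ h => eval_fall_eq_zero α ν h) hw (by rw [quo_fall]; exact h2) hm
          (totalDegree_fall α)
        refine h4.trans (le_of_eq ?_)
        congr 1
        refine Finset.sum_congr rfl fun j _ => ?_
        show (α j : ℤ) * ov w (z j) = (ν j : ℤ) * ov w (z j)
        by_cases hj : c j = 0
        · rw [hνj j hj]
        · rw [h3 j hj]; simp
    refine hcore ε hε N' Q₀ hQ₀ hN K L x z g b G A H G (fun j => Pi.single j 1) le_rfl ?_ ?_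
      (fun j _ => rfl) hdx ?_ α.degree (fun j => ν j) (aeval z F) E hFG hEmem hE0 hFD D hD B hB
      hcr hlc _ ?_
    · rw [Subgroup.relIndex_self]
    · exact Pi.linearIndependent_single_one (Fin k) ℂ
    · intro τ hτ j
      rw [hlin]
      exact hdz τ hτ j
    · rintro p ⟨χ, hχp, hχz⟩
      refine ⟨χ, hχp, ?_⟩
      intro τ hτ y hy
      obtain ⟨c', hc'⟩ := hFG τ hτ
      choose ζ hζ using fun j => hdz τ hτ j
      have hζ0 : ∀ j, ζ j ≠ 0 := by
        intro j h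
        have h5 := hζ j
        rw [h, zero_smul] at h5
        exact hz0 j ((map_eq_zero τ).1 h5)
      have hc'0 : c' ≠ 0 := by
        intro h
        rw [h, zero_smul] at hc'
        exact hf0 ((map_eq_zero τ).1 hc')
      obtain ⟨c'', hc''0, hc''⟩ := semi_pderivs hind hζ hζ0 hc'0 hc' α
      have h1 : τ E = (c'' * ∏ j ∈ S, ζ j) • E := by
        rw [hRz, map_mul, hc'', map_prod, mul_smul, Algebra.smul_def (∏ j ∈ S, ζ j), map_prod,
          Finset.prod_congr rfl fun j _ => hζ j]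
        simp only [Algebra.smul_def, Finset.prod_mul_distrib]
        ring
      exact eval_ne (x := x) χ c (fun y j h => hχz y j h) hRc (mul_ne_zero hc''0
        (Finset.prod_ne_zero_iff.2 fun j _ => hζ0 j)) y (by rw [hy, h1])

theorem eval_zero_pderivs {k : ℕ} {α : Fin k →₀ ℕ} {F : MvPolynomial (Fin k) ℂ}
    (h : eval 0 (pderivs α F) ≠ 0) : α ∈ F.support := by
  obtain ⟨ν, hν, -, h1⟩ := exists_exponent h
  have h2 : ν = α := Finsupp.ext fun j => h1 j rfl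
  rwa [h2] at hν

/-- **All parts.** -/
theorem main_all (d J : ℕ) (hd : 0 < d) : ∃ c : ℕ, 0 < c ∧
    ∀ ε : ℝ, 0 < ε → ∀ Q₀ n : ℕ, 0 < Q₀ → c * Q₀ ∣ n → (c : ℝ) * Q₀ * (1 + 1 / ε) ≤ n →
    ∀ q k : ℕ, q + k = d → ∀ (K L : Type) [Field K] [Field L] [Algebra ℂ K] [Algebra ℂ L]
      [Algebra K L] [IsScalarTower ℂ K L] (x : Fin (q + 1) → L) (z : Fin k → L)
      (g : MvPolynomial (Fin k) ℂ) (b : Fin k → ℚ) (f : L) (G : Subgroup (L ≃ₐ[ℂ] L))
      (A : Subalgebra ℂ K) (D : Fin (q + k) → Derivation ℂ K K) (B : Q.QDivisor A),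
      IsPairF x z g b f Q₀ G A D B ε →
    (∀ (G₀ : Subgroup (L ≃ₐ[ℂ] L)) (κ : ℕ) (μ : Fin k → ℕ) (E : L),
      IsLcData x z b f J Q₀ G G₀ κ μ E →
        Q.H646.HasKltComplementOver D B n (orbitPoints x z G A E)) ∧
    (∀ (F : MvPolynomial (Fin k) ℂ) (a : Fin k → ℂ) (α : Fin k →₀ ℕ), f = aeval z F →
      a = 0 ∨ IsDiagonal x z G → α.degree < Q₀ → eval a (pderivs α F) ≠ 0 →
      (∀ j, a j = 0 → (α j : ℚ) ≤ (Q₀ - 1) * (1 - b j)) →
        Q.H646.HasKltComplementOver D B n (pointsOver x z A a)) := by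
  obtain ⟨c₀, hc₀, h₀⟩ := main_lc d J hd
  obtain ⟨c₁, hc₁, h₁⟩ := main_mult d hd
  obtain ⟨c₂, hc₂, h₂⟩ := main_pts d hd
  refine ⟨c₀ * (c₁ * c₂), Nat.mul_pos hc₀ (Nat.mul_pos hc₁ hc₂), ?_⟩
  intro ε hε Q₀ n hQ₀ hdvd hn q k hqk K L _ _ _ _ _ _ x z g b f G A D B H
  have hε1 : (0 : ℝ) ≤ 1 + 1 / ε := by positivity
  have hQR : (0 : ℝ) ≤ Q₀ := Nat.cast_nonneg _
  have hkey : ∀ a b : ℕ, 0 < b → a * b = c₀ * (c₁ * c₂) →
      a * Q₀ ∣ n ∧ (a : ℝ) * Q₀ * (1 + 1 / ε) ≤ n := by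
    intro a b hb hab
    refine ⟨dvd_trans ?_ hdvd, ?_⟩
    · rw [← hab]
      exact Nat.mul_dvd_mul_right (Dvd.intro _ rfl) _
    · refine le_trans ?_ hn
      rw [← hab]
      have h3 : (a : ℝ) ≤ (a * b : ℕ) := by exact_mod_cast Nat.le_mul_of_pos_right a hb
      exact mul_le_mul_of_nonneg_right (mul_le_mul_of_nonneg_right h3 hQR) hε1
  refine ⟨?_, ?_⟩
  · intro G₀ κ μ E hE
    obtain ⟨h3, h4⟩ := hkey c₀ (c₁ * c₂) (Nat.mul_pos hc₁ hc₂) rfl
    exact h₀ ε hε Q₀ n hQ₀ h3 h4 q k hqk K L x z g b G A H.quotient G₀ hE.le hE.index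
      hE.diagonal.1 hE.diagonal.2 f H.mem E hE.mem H.ne_zero hE.ne_zero H.semi κ μ hE.lt hE.inv
      hE.bound hE.lc D H.form B H.effective H.crepant H.epsLC
  · rintro F a α rfl hG hdeg hα hb
    rcases hG with rfl | hG
    · obtain ⟨h3, h4⟩ := hkey c₁ (c₀ * c₂) (Nat.mul_pos hc₀ hc₂) (by ring)
      exact h₁ ε hε Q₀ n hQ₀ h3 h4 q k hqk K L x z g b G A H.quotient F
        ⟨α, eval_zero_pderivs hα, hdeg, fun j => hb j rfl⟩ H.semi D H.form B H.effective H.crepant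
        H.epsLC
    · obtain ⟨h3, h4⟩ := hkey c₂ (c₀ * c₁) (Nat.mul_pos hc₀ hc₁) (by ring)
      exact h₂ ε hε Q₀ n hQ₀ h3 h4 q k hqk K L x z g b G A H.quotient hG.1 hG.2 F H.semi D H.form B
        H.effective H.crepant H.epsLC a ⟨α, hdeg, hα, hb⟩

end Vale.Agent.P283.H646
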