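import Vale.Agent.P283.H646.Change

/-!
P283: from the engine to the form-free setting.
-/

set_option linter.style.haveILetI false

namespace Vale.Agent.P283.H646

open scoped KaehlerDifferential
open MvPolynomial Finset Vale.Agent.P283 Vale.Agent.P283.Q.H646

/-- The new crepancy condition implies the old one. -/
theorem crepant_oldF {K L : Type} [Field K] [Field L] [Algebra ℂ K] [Algebra ℂ L] [Algebra K L]
    [IsScalarTower ℂ K L] {q k : ℕ} (x : Fin (q + 1) → L) (z : Fin k → L) (b : Fin k → ℚ)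
    (f : L) (Q₀ : ℕ)
    (hx : ∀ l, Fin.tail x l ≠ 0) (hz : ∀ j, z j ≠ 0) (hF : f ≠ 0)
    {b0 : Fin (q + k) → K} (BK : Module.Basis (Fin (q + k)) K (Ω[K⁄ℂ]))
    (hBK : ∀ i, BK i = KaehlerDifferential.D ℂ K (b0 i))
    (BL : Module.Basis (Fin (q + k)) L (Ω[L⁄ℂ]))
    (hBL : ∀ i, BL i = KaehlerDifferential.D ℂ L (algebraMap K L (b0 i)))
    {D : Fin (q + k) → Derivation ℂ K K} {ω : ⋀[K]^(q + k) (Ω[K⁄ℂ])} (hω : ω ≠ 0)
    (hD : ∀ f : Fin (q + k) → K, wedgeD (q + k) f = Q.jac D f • ω) {A : Subalgebra ℂ K}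
    {B : Q.QDivisor A} (hc : Q.H646.IsCrepantF x z b f Q₀ A D B) :
    ∀ h : L, IsPullback ω (h • ((∏ l, Fin.tail x l)⁻¹ • wedgeD (q + k)
        (Fin.append (Fin.tail x) z))) →
      ∀ (u : AddValuation K (WithTop ℤ)) (p : Ideal A) (m : ℤ) (w : AddValuation L (WithTop ℤ))
        (e : ℕ), IsPrimeDivisorOn A (q + k) u p → FormOrder (q + k) u ω m → 0 < e →
        (∃ f, w f = 1) → (∀ f : K, w (algebraMap K L f) = e • u f) →
        (e : ℚ) * (m + (toOld B).coeff p) = ov w h + ∑ j, b j * ov w (z j)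
          + (ov w f : ℚ) / Q₀ := by
  intro h hpull u p m w e hu hm he hw1 hvw
  obtain ⟨D', hD'⟩ := exists_derivation_ext BK hBK BL hBL D
  -- the Jacobian on `K` and on `L`
  have hjac : ∀ f : Fin (q + k) → K, Q.jac D' (fun i => algebraMap K L (f i))
      = algebraMap K L (Q.jac D f) := by
    intro f
    unfold Q.jac
    rw [RingHom.map_det]
    congr 1
    ext i j
    simp [hD']
  have hω1 : ∃ f, Q.jac D f ≠ 0 := by
    refine ⟨b0, ?_⟩
    intro h0
    have := hD b0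
    rw [h0, zero_smul] at this
    exact wedgeD_basis_ne_zero BK hBK this
  have hD'1 : ∃ f, Q.jac D' f ≠ 0 := by
    obtain ⟨f, hf⟩ := hω1
    refine ⟨fun i => algebraMap K L (f i), ?_⟩
    rw [hjac]
    exact (map_ne_zero _).2 hf
  obtain ⟨ωL, hωL0, hωL⟩ : ∃ ωL : ⋀[L]^(q + k) (Ω[L⁄ℂ]), ωL ≠ 0 ∧
      ∀ f : Fin (q + k) → L, wedgeD (q + k) f = Q.jac D' f • ωL := by
    obtain ⟨-, h1, h2⟩ := wedgeD_eq_jac BL hBL D' hD'1
    exact ⟨_, h1, h2⟩
  obtain ⟨h0, f0, he1, he2⟩ := hpull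
  have h1 : h0 * Q.jac D f0 = 1 := by
    have h2 := he1
    rw [hD f0, smul_smul] at h2
    have h4 : (1 : K) • ω = (h0 * Q.jac D f0) • ω := by rw [one_smul]; exact h2
    exact (smul_left_injective K hω h4).symm
  have hprod : (∏ l, Fin.tail x l) ≠ 0 := Finset.prod_ne_zero_iff.2 fun l _ => hx l
  have h2 : h * Q.jac D' (Fin.append (Fin.tail x) z) = ∏ l, Fin.tail x l := by
    rw [hωL (fun i => algebraMap K L (f0 i)), hωL, hjac, smul_smul, smul_smul, smul_smul,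
      ← map_mul, h1, map_one] at he2
    have h3 : h * (∏ l, Fin.tail x l)⁻¹ * Q.jac D' (Fin.append (Fin.tail x) z) = 1 :=
      smul_left_injective L hωL0 he2
    have h4 : h * Q.jac D' (Fin.append (Fin.tail x) z) * (∏ l, Fin.tail x l)⁻¹ = 1 := by
      rw [← h3]; ring
    rw [← div_eq_mul_inv, div_eq_one_iff_eq hprod] at h4
    exact h4
  have hh : h ≠ 0 := by
    rintro rfl
    rw [zero_mul] at h2
    exact hprod h2.symm
  exact hc D' h hD' h2 u p m w e (ov w h) (fun j => ov w (z j)) (ov w f)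
    (primeDivisor_iff.2 hu) ((formOrder_iff_jac hω hD).2 hm) he hw1 hvw (coe_ov w hh).symm
    (fun j => (coe_ov w (hz j)).symm) (coe_ov w hF).symm

theorem concl_of_strong {K L : Type} [Field K] [Field L] [Algebra ℂ K] [Algebra ℂ L]
    [Algebra K L] {q k : ℕ} {x : Fin (q + 1) → L} {z : Fin k → L}
    {g : MvPolynomial (Fin k) ℂ} {b : Fin k → ℚ} {G : Subgroup (L ≃ₐ[ℂ] L)}
    {A : Subalgebra ℂ K} (H : Q.IsQuotient x z g b G A) {D : Fin (q + k) → Derivation ℂ K K}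
    {ω : ⋀[K]^(q + k) (Ω[K⁄ℂ])} (hω : ω ≠ 0)
    (hD : ∀ f : Fin (q + k) → K, wedgeD (q + k) f = Q.jac D f • ω)
    {B : Q.QDivisor A} (hB : ∀ p, 0 ≤ B.coeff p) {n : ℕ} {E : L} (hEmem : E ∈ Abs.rY x z)
    (hE0 : E ≠ 0) (h : StrongComplF (q + k) ω (toOld B) E n) (S : Set (Ideal A))
    (hS : S ⊆ goodPts x z G A E) :
    Q.H646.HasKltComplementOver D B n S := by
  obtain ⟨σ, hσ, hσ0, hσE⟩ := exists_s H hEmem hE0
  obtain ⟨r, ψ, φ, h0, hφ, h1, h2⟩ := h
  have h0' : ∀ p : Ideal A, Q.IsLocalEquation D B p r ψ := fun p =>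
    (localEquation_iff hω hD).2 (h0 p)
  have hr : 0 < r := (h0' ⊤).1
  have hrQ : (r : ℚ) ≠ 0 := by exact_mod_cast hr.ne'
  have hψ : ψ ≠ 0 := (h0' ⊤).2.1
  have hklt : ∀ (v' : AddValuation K (WithTop ℤ)) (m k' : ℤ), Q.IsDivisorial (q + k) v' →
      Q.IsOver A v' → v' σ = 0 → Q.FormOrder v' D m → v' φ = (k' : WithTop ℤ) →
      0 < 1 + (m : ℚ) - (k' : ℚ) / n := by
    intro v' m k' hv hover hs hm hk
    exact h1 v' m k' (divisorial_iff.1 hv) hover
      (fun w e _ _ hvw => hσE v' w e hover hs hvw) ((formOrder_iff_jac hω hD).1 hm) hk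
  have heff : ∀ (v' : AddValuation K (WithTop ℤ)) (k' l : ℤ), Q.IsDivisorial (q + k) v' →
      Q.IsOver A v' → v' σ = 0 → v' φ = (k' : WithTop ℤ) → v' ψ = (l : WithTop ℤ) →
      (l : ℚ) / r ≤ (k' : ℚ) / n := by
    intro v' k' l hv hover hs hk hl
    exact h2 v' k' l (divisorial_iff.1 hv) hover
      (fun w e _ _ hvw => hσE v' w e hover hs hvw) hk hl
  refine ⟨σ, φ, fun p hp => hσ p (hS hp), hφ, ?_, hklt, ?_⟩
  · intro u p m k' hu hσp hm hk
    have hs : u σ = 0 := by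
      have h3 : 0 ≤ u σ := hu.2.1 σ
      have h4 : ¬ 0 < u σ := fun h => hσp ((hu.2.2.1 σ).2 h)
      exact le_antisymm (not_lt.1 h4) h3
    obtain ⟨l, hl⟩ : ∃ l : ℤ, u ψ = (l : WithTop ℤ) := ⟨ov u ψ, (coe_ov u hψ).symm⟩
    have h3 := (h0' p).2.2 u p m l hu le_rfl hm hl
    have h4 := heff u k' l hu.1 hu.2.1 hs hk hl
    rw [h3, mul_div_cancel_left₀ _ hrQ] at h4
    have h5 := hB p
    constructor <;> linarith
  · intro 𝒞 β hb hC'
    have hσC : ∀ C ∈ 𝒞, ∀ v' : AddValuation K (WithTop ℤ), Q.IsOver C v' → v' σ = 0 := by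
      intro C hC v' hv'
      have hover : Q.IsOver A v' := fun a => hv' ⟨a, hb.le C hC a.2⟩
      have h3 : 0 ≤ v' (σ : K) := hover σ
      have h4 : 0 ≤ v' ((σ : K)⁻¹) := hv' ⟨_, hC' C hC⟩
      rw [nonneg_iff v' hσ0] at h3
      rw [nonneg_iff v' (inv_ne_zero hσ0), ov_inv] at h4
      rw [← coe_ov v' hσ0]
      have : ov v' (σ : K) = 0 := by omega
      rw [this]
      rfl
    refine ⟨hφ, fun C hC => ⟨?_, ?_⟩⟩
    · intro u p' m k' hu hm hk
      have hover : Q.IsOver A u := fun a => hu.2.1 ⟨a, hb.le C hC a.2⟩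
      obtain ⟨l, hl⟩ : ∃ l : ℤ, u ψ = (l : WithTop ℤ) := ⟨ov u ψ, (coe_ov u hψ).symm⟩
      have h3 := hb.crepant C hC u p' hu (centreIdeal A u hover) r ψ m l (fun _ => Iff.rfl)
        (h0' _) hm hl
      have h4 := heff u k' l hu.1 hover (hσC C hC u hu.2.1) hk hl
      rw [h3, mul_div_cancel_left₀ _ hrQ] at h4
      have h5 := hb.effective C hC u p' hu
      constructor <;> linarith
    · intro v' m k' hv hv' hm hk
      have hover : Q.IsOver A v' := fun a => hv' ⟨a, hb.le C hC a.2⟩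
      exact hklt v' m k' hv hover (hσC C hC v' hv') hm hk

/-- The order of the logarithmic form in terms of derivations. -/
theorem logForm_iff {q k : ℕ} {L : Type} [Field L] [Algebra ℂ L] {x : Fin (q + 1) → L}
    {z : Fin k → L} (ht : IsCoords (Abs.cT x z)) :
    ∃ D' : Fin (q + k) → Derivation ℂ L L,
      Q.jac D' (Fin.append (Fin.tail x) z) = (∏ l, Fin.tail x l) * ∏ j, z j ∧
      ∀ (w : AddValuation L (WithTop ℤ)) (m : ℤ),
        FormOrder (q + k) w (logForm (Abs.cT x z)) m → Q.FormOrder w D' m := by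
  classical
  obtain ⟨B', hB'⟩ := exists_kaehler_basis _ ht.isTranscendenceBasis
  set t := Abs.cT x z with htdef
  let EE : Fin (q + k) ≃ Fin q ⊕ Fin k := (finSumFinEquiv (m := q) (n := k)).symm
  let B := B'.reindex EE.symm
  have hB : ∀ i, B i = KaehlerDifferential.D ℂ L ((t ∘ EE) i) := by
    intro i
    simp only [B, Module.Basis.reindex_apply, Equiv.symm_symm, hB', Function.comp]
  have hcomp : t ∘ EE = Fin.append (Fin.tail x) z := Abs.cT_comp x z
  have htt : ∀ i, (t ∘ EE) i ≠ 0 := fun i => ht.ne_zero _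
  let D' : Fin (q + k) → Derivation ℂ L L := fun i => (t ∘ EE) i • pd B i
  have hjac : Q.jac D' (t ∘ EE) = ∏ i, (t ∘ EE) i := by
    unfold Q.jac
    have h1 : (Matrix.of fun i j => D' j ((t ∘ EE) i)) = Matrix.diagonal (t ∘ EE) := by
      ext i j
      simp only [Matrix.of_apply, D', Derivation.coe_smul, Pi.smul_apply, smul_eq_mul,
        Matrix.diagonal_apply]
      rw [pd_self B hB]
      by_cases h : i = j
      · subst h; simp
      · simp [h]
    rw [h1, Matrix.det_diagonal]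
  have hprod : ∏ i, (t ∘ EE) i = (∏ l, Fin.tail x l) * ∏ j, z j := by
    rw [show (∏ i, (t ∘ EE) i) = ∏ i, t i from Equiv.prod_comp EE t, Fintype.prod_sum_type]
    rfl
  have hjac0 : Q.jac D' (t ∘ EE) ≠ 0 := by
    rw [hjac]
    exact Finset.prod_ne_zero_iff.2 fun i _ => htt i
  refine ⟨D', ?_, ?_⟩
  · rw [← hcomp, hjac, hprod]
  · intro w m hm
    obtain ⟨-, h2, h3⟩ := wedgeD_eq_jac B hB D' ⟨_, hjac0⟩
    refine (formOrder_iff_jac h2 h3).2 ?_
    rw [hjac]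
    exact hm

end Vale.Agent.P283.H646
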